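import Vale.Agent.P047.Basic

/-! The central limit theorem for uniform averages, and facts on the Gaussian law. -/

namespace Vale.Agent.P047

open Finset MeasureTheory ProbabilityTheory Filter Topology
open scoped BigOperators ENNReal BoundedContinuousFunction

/-- The law of `f` under the uniform distribution. -/
noncomputable def law {β : Type} [Fintype β] (f : β → ℝ) : Measure ℝ :=
  (Fintype.card β : ℝ≥0∞)⁻¹ • ∑ b, Measure.dirac (f b)

instance law_prob {β : Type} [Fintype β] [Nonempty β] (f : β → ℝ) :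
    IsProbabilityMeasure (law f) := ⟨by
  simp [law, ENNReal.inv_mul_cancel]⟩

theorem integral_law {β E : Type} [Fintype β] [NormedAddCommGroup E] [NormedSpace ℝ E]
    [CompleteSpace E] (f : β → ℝ) (F : ℝ → E) :
    ∫ x, F x ∂law f = (Fintype.card β : ℝ)⁻¹ • ∑ b, F (f b) := by
  rw [law, integral_smul_measure, integral_finset_sum_measure fun _ _ =>
    integrable_dirac enorm_lt_top]
  simp

theorem integral_law_real {β : Type} [Fintype β] (f : β → ℝ) (F : ℝ → ℝ) :
    ∫ x, F x ∂law f = 𝔼 b, F (f b) := by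
  rw [integral_law, Fintype.expect_eq_sum_div_card, smul_eq_mul, div_eq_inv_mul]

theorem charFun_law {β : Type} [Fintype β] (f : β → ℝ) (t : ℝ) :
    charFun (law f) t = 𝔼 b, Complex.exp (t * f b * Complex.I) := by
  rw [charFun_apply_real, integral_law, Fintype.expect_eq_sum_div_card, div_eq_inv_mul]
  simp

variable {α : Type} [Fintype α] [Nonempty α] {φ : α → ℝ}

/-- The normalized sum. -/
noncomputable def nsum (φ : α → ℝ) (M : ℕ) (y : Fin M → α) : ℝ := (√M)⁻¹ * ∑ j, φ (y j)

theorem clt (h0 : 𝔼 a, φ a = 0) (h1 : 𝔼 a, φ a ^ 2 = 1) :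
    Tendsto (β := ProbabilityMeasure ℝ) (fun M => ⟨law (nsum φ M), inferInstance⟩) atTop
      (𝓝 ⟨gaussianReal 0 1, inferInstance⟩) := by
  refine ProbabilityMeasure.tendsto_iff_tendsto_charFun.2 fun t => ?_
  have := tendsto_charFun_inv_sqrt_mul_pow (P := law φ) (X := id) aemeasurable_id
    (by simpa [integral_law_real] using h0) (by simpa [integral_law_real] using h1) t
  simp only [Measure.map_id] at this
  convert this using 2 with M
  · simp only [ProbabilityMeasure.coe_mk, charFun_law, expect_pow, Fintype.piFinset_univ, nsum]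
    refine expect_congr rfl fun y _ => ?_
    rw [← Complex.exp_sum]
    push_cast
    simp only [mul_sum, sum_mul]
    congr 1
    exact sum_congr rfl fun j _ => by ring
  · simp [charFun_gaussianReal, neg_div]

/-- The standard Gaussian mass of `[a, b)`. -/
noncomputable def gm (a b : ℝ) : ℝ := (gaussianReal 0 1).real (Set.Ico a b)

theorem clt_Ico (h0 : 𝔼 a, φ a = 0) (h1 : 𝔼 a, φ a ^ 2 = 1) (a b : ℝ) :
    Tendsto (fun M => 𝔼 y, (if a ≤ nsum φ M y ∧ nsum φ M y < b then 1 else 0 : ℝ)) atTop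
      (𝓝 (gm a b)) := by
  have h := ProbabilityMeasure.tendsto_measure_of_null_frontier_of_tendsto' (clt h0 h1)
    (E := Set.Ico a b) (by
      haveI := nullSingletonClass_gaussianReal (μ := 0) (v := 1) one_ne_zero
      rw [ProbabilityMeasure.coe_mk]
      rcases lt_or_ge a b with h | h
      · rw [frontier_Ico h]; exact (Set.toFinite _).measure_zero _
      · simp [Set.Ico_eq_empty_of_le h])
  refine ((ENNReal.tendsto_toReal (measure_ne_top (gaussianReal 0 1) _)).comp h).congr fun M => ?_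
  have := integral_law_real (nsum φ M) ((Set.Ico a b).indicator 1)
  rw [integral_indicator_one measurableSet_Ico] at this
  exact this.trans (expect_congr rfl fun y _ => by simp [Set.indicator_apply])

theorem gm_pos {a b : ℝ} (h : a < b) : 0 < gm a b := by
  refine ENNReal.toReal_pos (fun h0 => ?_) (measure_ne_top _ _)
  simpa [h.not_ge] using gaussianReal_absolutelyContinuous' 0 one_ne_zero h0

theorem gm_le (a b : ℝ) : gm a b ≤ 1 := measureReal_le_one

theorem gm_eq (a b s : ℝ) : gm (a - s) (b - s) = ∫ x in Set.Ico a b, gaussianPDFReal s 1 x := by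
  have := gaussianReal_map_add_const (μ := 0) (v := 1) s
  have h2 := gaussianReal_apply_eq_integral s one_ne_zero (Set.Ico a b)
  rw [zero_add] at this
  rw [← this, Measure.map_apply (by fun_prop) measurableSet_Ico, Set.preimage_add_const_Ico] at h2
  rw [gm, Measure.real, h2, ENNReal.toReal_ofReal
    (integral_nonneg fun x => gaussianPDFReal_nonneg _ _ _)]

theorem gm_shift (a b : ℝ) : 8 * gm (a - 1) (b - 1) ≤ 64 * gm a b + gm (a - 2) (b - 2) := by
  have h0 := gm_eq a b 0
  simp only [sub_zero] at h0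
  rw [h0, gm_eq, gm_eq, ← integral_const_mul, ← integral_const_mul, ← integral_add
    ((integrable_gaussianPDFReal _ _).const_mul _).restrict (integrable_gaussianPDFReal _ _).restrict]
  refine integral_mono ((integrable_gaussianPDFReal _ _).const_mul _).restrict
    (((integrable_gaussianPDFReal _ _).const_mul _).add (integrable_gaussianPDFReal _ _)).restrict
    fun x => ?_
  simp only [gaussianPDFReal, NNReal.coe_one, mul_one]
  have e1 : Real.exp (-(x - 0) ^ 2 / 2) = Real.exp (-(x - 1) ^ 2 / 2) * Real.exp (-1 / 2) *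
      (Real.exp ((x - 1) / 2))⁻¹ ^ 2 := by
    rw [← Real.exp_neg, ← Real.exp_nat_mul, ← Real.exp_add, ← Real.exp_add]; congr 1; push_cast; ring
  have e2 : Real.exp (-(x - 2) ^ 2 / 2) = Real.exp (-(x - 1) ^ 2 / 2) * Real.exp (-1 / 2) *
      Real.exp ((x - 1) / 2) ^ 2 := by
    rw [← Real.exp_nat_mul, ← Real.exp_add, ← Real.exp_add]; congr 1; push_cast; ring
  have h1 := Real.add_one_le_exp (-1 / 2)
  have h2 := mul_inv_cancel₀ (Real.exp_pos ((x - 1) / 2)).ne'
  have h3 : 16 ≤ 64 * (Real.exp ((x - 1) / 2))⁻¹ ^ 2 + Real.exp ((x - 1) / 2) ^ 2 := by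
    nlinarith [sq_nonneg (8 * (Real.exp ((x - 1) / 2))⁻¹ - Real.exp ((x - 1) / 2))]
  have h4 := mul_le_mul h1 h3 (by norm_num) (Real.exp_pos _).le
  have h5 := mul_le_mul_of_nonneg_left h4 (show 0 ≤ (√(2 * Real.pi))⁻¹ *
    Real.exp (-(x - 1) ^ 2 / 2) by positivity)
  rw [e1, e2]
  linarith

theorem clt_tail : ∃ A C : ℝ, 0 < A ∧ 0 < C ∧ ∀ {α : Type} [Fintype α] [Nonempty α] {φ : α → ℝ},
    𝔼 a, φ a = 0 → 𝔼 a, φ a ^ 2 = 1 → ∀ k : ℝ, 0 ≤ k → ∀ᶠ M in atTop,
      𝔼 y, (nsum φ M y ^ 2 - min (nsum φ M y ^ 2) k) ≤ A * Real.exp (-(C * k)) := by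
  obtain ⟨C, hC, hi⟩ := IsGaussian.exists_integrable_exp_sq (gaussianReal 0 1)
  refine ⟨C⁻¹ * (∫ x, Real.exp (C * ‖x‖ ^ 2) ∂gaussianReal 0 1) + 1, C,
    by positivity, hC, fun {α} _ _ φ h0 h1 k hk => ?_⟩
  let F : ℝ →ᵇ ℝ := BoundedContinuousFunction.ofNormedAddCommGroup (fun x => min (x ^ 2) k)
    (by fun_prop) k fun x => by
      rw [Real.norm_of_nonneg (by positivity)]; exact min_le_right _ _
  have h := ProbabilityMeasure.tendsto_iff_forall_integral_tendsto.1 (clt h0 h1) F
  have hsq : Integrable (fun x : ℝ => x ^ 2) (gaussianReal 0 1) :=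
    (memLp_id_gaussianReal (μ := 0) (v := 1) 2).integrable_sq
  have hv : ∫ x, x ^ 2 ∂gaussianReal 0 1 = 1 := by
    have := variance_eq_integral (μ := gaussianReal 0 1) (X := id) aemeasurable_id
    simpa [variance_id_gaussianReal] using this.symm
  have hb : 1 - ∫ x, F x ∂gaussianReal 0 1 ≤ C⁻¹ * Real.exp (-(C * k)) *
      ∫ x, Real.exp (C * ‖x‖ ^ 2) ∂gaussianReal 0 1 := by
    rw [← hv, ← integral_sub hsq (F.integrable _), ← integral_const_mul]
    refine integral_mono (hsq.sub (F.integrable _)) (hi.const_mul _) fun x => ?_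
    change x ^ 2 - min (x ^ 2) k ≤ _
    rw [mul_assoc, ← Real.exp_add, Real.norm_eq_abs, sq_abs, le_inv_mul_iff₀ hC]
    have := Real.add_one_le_exp (-(C * k) + C * x ^ 2)
    have := Real.exp_pos (-(C * k) + C * x ^ 2)
    rcases le_total (x ^ 2) k with h | h
    · rw [min_eq_left h]; linarith
    · rw [min_eq_right h]; linarith
  filter_upwards [h.eventually (lt_mem_nhds (sub_lt_self _ (Real.exp_pos (-(C * k))))),
    eventually_gt_atTop 0] with M hM hM0
  have e : 𝔼 y, nsum φ M y ^ 2 = 1 := by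
    simp only [nsum, mul_pow, ← mul_expect, expect_sq_sum univ φ h0, h1, card_univ,
      Fintype.card_fin, inv_pow, Real.sq_sqrt (Nat.cast_nonneg M), mul_one]
    exact inv_mul_cancel₀ (by positivity)
  rw [ProbabilityMeasure.coe_mk, ProbabilityMeasure.coe_mk, integral_law_real] at hM
  rw [expect_sub_distrib, e]
  change _ < 𝔼 y, min (nsum φ M y ^ 2) k at hM
  linarith

end Vale.Agent.P047
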