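import Vale.Agent.P047.Gadget
import Vale.Agent.P047.Clt

/-! A uniform gain in the ratio of variance to degree. -/

namespace Vale.Agent.P047

open Finset Filter Topology
open scoped BigOperators

theorem params_alg {p H J b N : ℝ} (hH : 1 ≤ H) (hJ : H ≤ J) (hpb : p * b = 200000 * J ^ 3)
    (hb1 : 200000 * J ^ 3 ≤ b) (hN2 : b ^ 3 ≤ N) :
    2 / b * (7 * J * (5 * J) ^ 2) ≤ p * H ^ 2 / 256 ∧
      (2 * J + 1) * (4 / (N * (2 / b / 2) ^ 2)) * (5 * J) ^ 2 ≤ p * H ^ 2 / 256 ∧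
      2 ≤ N * (2 / b / 2) ∧ 1 / N ^ 5 ≤ 2 / b / 2 ∧
      H * ((10 * J + N + 1) * ((N + 1) * (1 / N ^ 5))) ≤ H ^ 2 ∧
      (65 * (5 * J) ^ 2 + 16 * H ^ 2 + 16) * (1 / N ^ 5) ≤ 2 / 5 * H ^ 2 := by
  have hJ1 : 1 ≤ J := hH.trans hJ
  have hJ3 : J ≤ J ^ 2 := by nlinarith
  have hJ4 : J ^ 2 ≤ J ^ 3 := pow_le_pow_right₀ hJ1 (by norm_num)
  have hH2 : 1 ≤ H ^ 2 := one_le_pow₀ hH
  have hH3 : H ^ 2 ≤ J ^ 2 := pow_le_pow_left₀ (by linarith) hJ 2
  have hb0 : 2 ≤ b := by linarith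
  have hb2 : 2 * b ≤ b ^ 2 := by nlinarith
  have hb3 : b ^ 2 ≤ b ^ 3 := pow_le_pow_right₀ (by linarith) (by norm_num)
  have hN0 : 0 < N := by linarith
  have hN5 : 2 * N ≤ N ^ 2 := by nlinarith
  have hN6 : N ^ 2 ≤ N ^ 3 := pow_le_pow_right₀ (by linarith) (by norm_num)
  have hN7 : 2 * N ^ 2 ≤ N ^ 3 := by nlinarith
  have hN8 : N ^ 3 ≤ N ^ 5 := pow_le_pow_right₀ (by linarith) (by norm_num)
  have key : 200000 * J ^ 3 ≤ p * H ^ 2 * b := by
    rw [mul_right_comm, hpb]; exact le_mul_of_one_le_right (by positivity) hH2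
  refine ⟨?_, ?_, ?_, ?_, ?_, ?_⟩
  · rw [div_mul_eq_mul_div, div_le_iff₀ (by linarith)]
    linarith
  · have : 4 / (N * (2 / b / 2) ^ 2) ≤ 4 / b := by
      refine div_le_div_of_nonneg_left (by norm_num) (by linarith) ?_
      rw [show N * (2 / b / 2) ^ 2 = N / b ^ 2 by field_simp, le_div_iff₀ (by positivity)]
      linarith
    refine (mul_le_mul_of_nonneg_right (mul_le_mul_of_nonneg_left this (by positivity))
      (by positivity)).trans ?_
    rw [← mul_div_assoc, div_mul_eq_mul_div, div_le_iff₀ (by linarith)]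
    linarith
  · rw [show N * (2 / b / 2) = N / b by field_simp, le_div_iff₀ (by linarith)]
    linarith
  · rw [show 2 / b / 2 = 1 / b by field_simp]
    exact one_div_le_one_div_of_le (by linarith) (by linarith)
  · rw [sq]
    refine mul_le_mul_of_nonneg_left (le_trans ?_ hH) (by positivity)
    rw [← mul_assoc, mul_one_div, div_le_one (by positivity)]
    calc _ ≤ N ^ 2 * N ^ 3 := mul_le_mul (by linarith) (by linarith) (by linarith) (by positivity)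
      _ = _ := by ring
  · rw [mul_one_div, div_le_iff₀ (by positivity)]
    have := mul_le_mul_of_nonneg_right hH2 (show 0 ≤ N ^ 5 by positivity)
    linarith

theorem params {p A C : ℝ} (hp : 0 < p) (hp1 : p ≤ 1) (hC : 0 < C) {H : ℕ}
    (hH : 1 ≤ H) : ∃ (J N : ℕ) (c τ : ℝ), H ≤ J ∧ 1 ≤ N ∧ 0 < c ∧
      c * (7 * J * (5 * J) ^ 2) ≤ p * H ^ 2 / 256 ∧ (2 / c) ^ (2 * J + 1) ≤ N ∧
      (2 * J + 1) * (4 / (N * (c / 2) ^ 2)) * (5 * J) ^ 2 ≤ p * H ^ 2 / 256 ∧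
      2 ≤ N * (c / 2) ∧ τ ≤ c / 2 ∧ H * ((10 * J + N + 1) * ((N + 1) * τ)) ≤ H ^ 2 ∧
      (65 * (5 * J) ^ 2 + 16 * H ^ 2 + 16) * τ ≤ 2 / 5 * H ^ 2 ∧ 0 ≤ τ ∧
      2 * H ^ 2 * (A * Real.exp (-(C * (J ^ 2 / (2 * H ^ 2))))) ≤ τ := by
  have hH1 : (1 : ℝ) ≤ H := by exact_mod_cast hH
  have e1 := tendsto_natCast_atTop_atTop.eventually
    (Real.isLittleO_log_id_atTop.bound (show 0 < C / (2 * H ^ 2) / 61 by positivity))
  obtain ⟨J, h1, h2, h3, h4⟩ := (e1.and ((eventually_ge_atTop H).and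
    ((tendsto_natCast_atTop_atTop.eventually_ge_atTop (200000 / p)).and
    (tendsto_natCast_atTop_atTop.eventually_ge_atTop (64 * H ^ 2 * A))))).exists
  clear e1
  have hJ : (H : ℝ) ≤ J := by exact_mod_cast h2
  have hJ1 : (1 : ℝ) ≤ J := hH1.trans hJ
  have hJ3 : (1 : ℝ) ≤ J ^ 3 := one_le_pow₀ hJ1
  obtain ⟨b, hb⟩ : ∃ b : ℝ, b = 200000 * J ^ 3 / p := ⟨_, rfl⟩
  have hb1 : 200000 * (J : ℝ) ^ 3 ≤ b := by
    rw [hb, le_div_iff₀ hp]; exact mul_le_of_le_one_right (by positivity) hp1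
  obtain ⟨N, hN⟩ : ∃ N, N = ⌈b ^ (2 * J + 1)⌉₊ := ⟨_, rfl⟩
  have hN1 : b ^ (2 * J + 1) ≤ N := hN ▸ Nat.le_ceil _
  have hb2 := one_le_pow₀ (show 1 ≤ b by linarith) (n := 2 * J + 1)
  have hN4 : (N : ℝ) ≤ 2 * b ^ (2 * J + 1) := by
    have := Nat.ceil_lt_add_one (show 0 ≤ b ^ (2 * J + 1) by positivity)
    rw [← hN] at this
    linarith
  obtain ⟨q1, q2, q3, q4, q5, q6⟩ := params_alg (p := p) hH1 hJ (by rw [hb]; field_simp) hb1
    ((pow_le_pow_right₀ (by linarith) (by omega)).trans hN1)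
  have hb0 : 0 < b := by linarith
  have hN0 : (1 : ℝ) ≤ N := hb2.trans hN1
  refine ⟨J, N, 2 / b, 1 / N ^ 5, h2, by exact_mod_cast hN0, by positivity, q1,
    by rwa [show 2 / (2 / b) = b by field_simp], q2, q3, q4, q5, q6, by positivity, ?_⟩
  rw [le_div_iff₀ (by positivity), Real.exp_neg, ← mul_assoc, ← div_eq_mul_inv,
    div_mul_eq_mul_div, div_le_one (Real.exp_pos _)]
  have a1 : b ≤ J ^ 4 := by
    rw [hb, mul_div_right_comm, pow_succ' _ 3]
    gcongr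
  have a2 : (N : ℝ) ^ 5 ≤ 32 * J ^ (60 * J) := by
    calc (N : ℝ) ^ 5 ≤ (2 * ((J : ℝ) ^ 4) ^ (2 * J + 1)) ^ 5 := by
          gcongr; exact hN4.trans (by gcongr)
      _ = 32 * (J : ℝ) ^ (20 * (2 * J + 1)) := by ring
      _ ≤ _ := mul_le_mul_of_nonneg_left (pow_le_pow_right₀ hJ1 (by omega)) (by norm_num)
  have a3 : (J : ℝ) ≤ J ^ J := le_self_pow₀ hJ1 (by omega)
  simp only [id, Real.norm_natCast, Real.norm_of_nonneg (Real.log_nonneg hJ1)] at h1
  calc 2 * H ^ 2 * A * (N : ℝ) ^ 5 ≤ J / 32 * (32 * J ^ (60 * J)) :=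
        mul_le_mul (by linarith) a2 (by positivity) (by positivity)
    _ = J * J ^ (60 * J) := by ring
    _ ≤ J ^ J * J ^ (60 * J) := by gcongr
    _ = Real.exp ((61 * J : ℕ) * Real.log J) := by
      rw [Real.exp_nat_mul, Real.exp_log (by linarith)]; ring
    _ ≤ _ := by
      refine Real.exp_le_exp.2 ?_
      push_cast
      calc 61 * J * Real.log J ≤ 61 * J * (C / (2 * H ^ 2) / 61 * J) := by gcongr
        _ = _ := by ring

theorem ex_le {J : ℕ} {H u : ℝ} (hH : 0 < H) :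
    ex J (H * u) ^ 2 ≤ 2 * H ^ 2 * (u ^ 2 - min (u ^ 2) (J ^ 2 / (2 * H ^ 2))) := by
  unfold ex
  split_ifs with h
  · have := min_le_left (u ^ 2) (J ^ 2 / (2 * H ^ 2))
    rw [zero_pow two_ne_zero]
    exact mul_nonneg (by positivity) (by linarith)
  · have h1 : (J : ℝ) ≤ |H * u| := by
      rw [le_abs']
      rcases lt_abs.1 (not_le.1 h) with h | h
      · exact Or.inr (by exact_mod_cast (Int.le_floor (z := J)).1 h.le)
      · exact Or.inl (by exact_mod_cast ((Int.floor_lt (z := -J)).1 (by omega)).le)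
    have h2 := pow_le_pow_left₀ (by positivity) h1 2
    rw [sq_abs] at h2
    have := mul_le_mul_of_nonneg_left (min_le_right (u ^ 2) (J ^ 2 / (2 * H ^ 2)))
      (show 0 ≤ 2 * H ^ 2 by positivity)
    rw [mul_div_cancel₀ _ (by positivity)] at this
    nlinarith

theorem amplify : ∃ (N : ℕ) (η : ℝ), 1 ≤ N ∧ 0 < η ∧ ∀ {ι : Type} [Fintype ι] [DecidableEq ι]
    {c : ℕ} {φ : (ι → Bool) → ℝ}, Good c φ → 0 < 𝔼 x, φ x ^ 2 → ∃ M, 1 ≤ M ∧
      ∃ Ψ : (Fin (N + 1) × Fin M × ι → Bool) → ℝ, Good (N * (M * c)) Ψ ∧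
        N * (M * 𝔼 x, φ x ^ 2) * (1 + η) ≤ 𝔼 x, Ψ x ^ 2 := by
  obtain ⟨A, C, hA, hC, htail⟩ := clt_tail
  have hg := gm_pos (show (0 : ℝ) < 1 / 200 by norm_num)
  have hg1 := gm_le 0 (1 / 200)
  set p := gm 0 (1 / 200) / 2 with hp
  have hp0 : 0 < p := by positivity
  obtain ⟨r, hr⟩ := exists_nat_ge (7168 / p)
  rw [div_le_iff₀ hp0] at hr
  obtain ⟨H, hH⟩ : ∃ H, H = 200 * (r + 2) := ⟨_, rfl⟩
  have hH0 : (0 : ℝ) < H := by rw [hH]; positivity
  obtain ⟨J, N, c', τ, q1, q2, q3, q4, q5, q6, q7, q8, q9, q10, q12, q11⟩ :=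
    params (A := A) hp0 (by linarith) hC (H := H) (by omega)
  set n : ℝ := (2 * (N * J + (J + 2 * H)) + 1) * (N + r + 1) with hn
  have hn0 : 0 < n := by positivity
  refine ⟨N, 1 / (N * n), q2, by positivity, fun {ι} _ _ c φ hφ hV => ?_⟩
  set V := 𝔼 x, φ x ^ 2 with hVd
  have h0 : 𝔼 x, φ x / √V = 0 := by rw [← expect_div, hφ.mean, zero_div]
  have h1 : 𝔼 x, (φ x / √V) ^ 2 = 1 := by
    simp only [div_pow, ← expect_div, Real.sq_sqrt hV.le]; exact div_self hV.ne'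
  have hfl : ∀ j : ℤ, Tendsto (fun M => 𝔼 y, (if ⌊H * nsum (fun x => φ x / √V) M y⌋ = j
      then 1 else 0 : ℝ)) atTop (𝓝 (gm (j / H) ((j + 1) / H))) := fun j =>
    (clt_Ico h0 h1 _ _).congr fun M => expect_congr rfl fun y _ => if_congr (by
      rw [Int.floor_eq_iff, div_le_iff₀' hH0, lt_div_iff₀' hH0]) rfl rfl
  have ev1 := (eventually_all_finset (Icc (-(J + 2 * H) : ℤ) (J + 2 * H))).2 fun l _ =>
    (((hfl (l - H)).const_mul 8).sub (((hfl l).const_mul 64).add (hfl (l - 2 * H)))).eventually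
      (gt_mem_nhds (a := c' / 2) (by
        have := gm_shift (l / H) ((l + 1) / H)
        rw [show (l : ℝ) / H - 1 = (l - H : ℤ) / H by push_cast; field_simp,
          show (l + 1 : ℝ) / H - 1 = ((l - H : ℤ) + 1) / H by push_cast; field_simp; ring,
          show (l : ℝ) / H - 2 = (l - 2 * H : ℤ) / H by push_cast; field_simp,
          show (l + 1 : ℝ) / H - 2 = ((l - 2 * H : ℤ) + 1) / H by push_cast; field_simp; ring] at this
        linarith))
  have ev2 := (clt_Ico h0 h1 0 (1 / 200)).eventually (lt_mem_nhds (show p < _ by linarith))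
  obtain ⟨M, m1, m2, m3, m4⟩ := (ev1.and (ev2.and ((htail h0 h1 (J ^ 2 / (2 * H ^ 2))
    (by positivity)).and (eventually_ge_atTop 1)))).exists
  have hM : (0 : ℝ) < M := by exact_mod_cast m4
  have hs := hφ.sum (κ := Fin M)
  rw [Fintype.card_fin] at hs
  set Φ : (Fin M × ι → Bool) → ℝ := fun x => ∑ j, φ fun i => x (j, i) with hΦ
  have hΦ2 : 𝔼 x, Φ x ^ 2 = M * V := by
    rw [hΦ, expect_curry fun y => (∑ j, φ (y j)) ^ 2, expect_sq_sum univ φ hφ.mean]; simp [hVd]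
  set l : ℝ := H * ((√M)⁻¹ / √V) with hl
  have hl2 : l ^ 2 * (M * V) = H ^ 2 := by
    rw [hl, mul_pow, div_pow, inv_pow, Real.sq_sqrt hM.le, Real.sq_sqrt hV.le]; field_simp
  have hl0 : 0 < l := by positivity
  have hψ : ∀ F : ℝ → ℝ, 𝔼 x, F (l * Φ x) = 𝔼 y, F (H * nsum (fun x => φ x / √V) M y) := fun F => by
    rw [← expect_curry]
    refine expect_congr rfl fun x _ => congrArg F ?_
    simp only [hl, hΦ, nsum, ← sum_div]; ring
  obtain ⟨s, E, hE, hG⟩ := gadget (ψ := fun x => l * Φ x) (N := N) hH le_rfl q1 hr (by linarith) q3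
    q4 q5 q6 q7 q8 (le_trans (mul_le_mul_of_nonneg_right
      (by exact_mod_cast (show r + 2 ≤ H by omega)) (by positivity)) q9) q10
    (by rw [← mul_expect, hs.mean, mul_zero]) (by simp only [mul_pow, ← mul_expect, hΦ2, hl2])
    (by
      rw [hψ fun x => ex J x ^ 2]
      refine (expect_le_expect fun y _ => ex_le hH0).trans (le_trans ?_ q11)
      rw [← mul_expect]
      gcongr)
    (fun k hk => by
      have := m1 k (mem_Icc.2 (abs_le.1 hk))
      rw [hψ fun x => if ⌊x⌋ = k - H then 1 else 0, hψ fun x => if ⌊x⌋ = k then 1 else 0,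
        hψ fun x => if ⌊x⌋ = k - 2 * H then 1 else 0]
      linarith)
    (by
      rw [hψ fun x => if 0 ≤ x ∧ x < (r + 2 : ℕ) then 1 else 0]
      refine m2.le.trans (le_of_eq (expect_congr rfl fun y _ => if_congr ?_ rfl rfl))
      rw [mul_nonneg_iff_of_pos_left hH0, ← lt_div_iff₀' hH0, hH]
      push_cast
      rw [show ((r : ℝ) + 2) / (200 * (r + 2)) = 1 / 200 by field_simp])
  obtain ⟨Ψ, g1, g2⟩ := hs.pack (N := N) (by simp) (E := E) ⟨hE.bool, hE.disj, fun t y y' h =>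
    hE.dep t y y' fun j hj => congrArg (l * ·) (h j hj)⟩ hΦ2 (γ := M * V / n) (s := s / l) (by
      rw [div_le_iff₀' hn0]
      refine le_of_mul_le_mul_left ?_ (pow_pos hl0 2)
      rw [hl2, mul_left_comm, mul_expect, hn, mul_assoc]
      refine hG.trans (le_of_eq ?_)
      congr 2
      refine expect_congr rfl fun y _ => ?_
      rw [← hl2, ← mul_sum]
      field_simp)
  refine ⟨M, m4, Ψ, g1, le_trans (le_of_eq ?_) g2⟩
  have : (0 : ℝ) < N := by exact_mod_cast q2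
  field_simp

end Vale.Agent.P047
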