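import Vale.Agent.P047.Defs

/-! Juntas, averages over product spaces, and scored variables. -/

namespace Vale.Agent.P047

open Finset Function
open scoped BigOperators

section avg

variable {κ α : Type} [Fintype κ] [DecidableEq κ] [Fintype α] [Nonempty α]

theorem expect_update (t : κ) (F : (κ → α) → ℝ) :
    𝔼 y, F y = 𝔼 y, 𝔼 a, F (update y t a) := by
  have hi : Involutive fun p : (κ → α) × α => (update p.1 t p.2, p.1 t) := fun p => by simp
  rw [← expect_product' univ univ fun y a => F (update y t a), univ_product_univ,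
    Fintype.expect_equiv hi.toPerm (fun p => F (update p.1 t p.2)) (fun p => F p.1) fun _ => rfl,
    ← univ_product_univ, expect_product' univ univ fun y (_ : α) => F y]
  simp

theorem expect_mul_indep (t : κ) (f : α → ℝ) (H : (κ → α) → ℝ)
    (hH : ∀ y a, H (update y t a) = H y) :
    𝔼 y, f (y t) * H y = (𝔼 a, f a) * 𝔼 y, H y := by
  rw [expect_update t, mul_expect]
  refine expect_congr rfl fun y _ => ?_
  simp only [update_self, hH, expect_mul]

theorem expect_coord (t : κ) (f : α → ℝ) : 𝔼 y : κ → α, f (y t) = 𝔼 a, f a := by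
  simpa using expect_mul_indep t f (fun _ => 1) fun _ _ => rfl

theorem expect_sq_sum (A : Finset κ) (f : α → ℝ) (h0 : 𝔼 a, f a = 0) :
    𝔼 y : κ → α, (∑ s ∈ A, f (y s)) ^ 2 = A.card * 𝔼 a, f a ^ 2 := by
  have h : ∀ y : κ → α, (∑ s ∈ A, f (y s)) ^ 2 =
      ∑ t ∈ A, (f (y t) ^ 2 + f (y t) * ∑ s ∈ A.erase t, f (y s)) := fun y => by
    rw [sq, sum_mul]
    refine sum_congr rfl fun t ht => ?_
    rw [← add_sum_erase A _ ht]; ring
  simp only [h, expect_sum_comm, expect_add_distrib]
  rw [sum_congr rfl (g := fun _ => 𝔼 a, f a ^ 2) fun t _ => ?_]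
  · simp
  · rw [expect_coord t fun a => f a ^ 2, expect_mul_indep t f, h0]
    · simp
    · intro y a
      exact sum_congr rfl fun s hs => by rw [update_of_ne (ne_of_mem_erase hs)]

/-- `H` depends only on the values of `φ` at the coordinates in `A`. -/
def Dep (φ : α → ℝ) (A : Finset κ) (H : (κ → α) → ℝ) : Prop :=
  ∀ y y' : κ → α, (∀ j ∈ A, φ (y j) = φ (y' j)) → H y = H y'

omit [Fintype α] [Nonempty α] in
theorem Dep.update {φ : α → ℝ} {t : κ} {H : (κ → α) → ℝ} (h : Dep φ (univ.erase t) H)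
    (y : κ → α) (a : α) : H (update y t a) = H y :=
  h _ _ fun j hj => by rw [update_of_ne (ne_of_mem_erase hj)]

omit [Fintype κ] [DecidableEq κ] [Fintype α] [Nonempty α] in
theorem Dep.mono {φ : α → ℝ} {A B : Finset κ} {H : (κ → α) → ℝ} (h : Dep φ A H) (hAB : A ⊆ B) :
    Dep φ B H := fun y y' hy => h y y' fun j hj => hy j (hAB hj)

theorem Dep.expect_swap {φ S S' : α → ℝ}
    (hS : ∀ g : ℝ → ℝ, 𝔼 a, S a * g (φ a) = 𝔼 a, S' a * g (φ a))
    {H : (κ → α) → ℝ} (h : Dep φ univ H) (t : κ) :
    𝔼 y, S (y t) * H y = 𝔼 y, S' (y t) * H y := by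
  rw [expect_update t, expect_update t fun y => S' (y t) * H y]
  refine expect_congr rfl fun y _ => ?_
  have hf : FactorsThrough (fun a => H (Function.update y t a)) φ := fun a b hab =>
    h _ _ fun j _ => by
      by_cases hj : j = t
      · subst hj; simpa using hab
      · simp [update_of_ne hj]
  have := hS (extend φ (fun a => H (Function.update y t a)) 0)
  simpa only [hf.extend_apply, update_self] using this

end avg

/-- The span of the functions depending on at most `c` coordinates. -/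
def Jun (ι : Type) (c : ℕ) : Submodule ℝ ((ι → Bool) → ℝ) :=
  Submodule.span ℝ {F | ∃ A : Finset ι, A.card ≤ c ∧ ∀ x y, (∀ i ∈ A, x i = y i) → F x = F y}

theorem Jun.mono {ι : Type} {c c' : ℕ} (h : c ≤ c') : Jun ι c ≤ Jun ι c' :=
  Submodule.span_mono fun _ ⟨A, hA, hF⟩ => ⟨A, hA.trans h, hF⟩

theorem Jun.const {ι : Type} (c : ℕ) (r : ℝ) : (fun _ => r) ∈ Jun ι c :=
  Submodule.subset_span ⟨∅, by simp, fun _ _ _ => rfl⟩

theorem Jun.mul {ι : Type} {c c' : ℕ} {F G : (ι → Bool) → ℝ} (hF : F ∈ Jun ι c)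
    (hG : G ∈ Jun ι c') : F * G ∈ Jun ι (c + c') := by
  classical
  induction hF using Submodule.span_induction with
  | zero => simp
  | add _ _ _ _ h1 h2 => rw [add_mul]; exact add_mem h1 h2
  | smul a _ _ h => rw [smul_mul_assoc]; exact Submodule.smul_mem _ _ h
  | mem F hF =>
    induction hG using Submodule.span_induction with
    | zero => simp
    | add _ _ _ _ h1 h2 => rw [mul_add]; exact add_mem h1 h2
    | smul a _ _ h => rw [mul_smul_comm]; exact Submodule.smul_mem _ _ h
    | mem G hG =>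
      obtain ⟨A, hA, hF⟩ := hF
      obtain ⟨B, hB, hG⟩ := hG
      refine Submodule.subset_span ⟨A ∪ B, (card_union_le _ _).trans (by omega), fun x y h => ?_⟩
      rw [Pi.mul_apply, Pi.mul_apply, hF x y fun i hi => h i (mem_union_left _ hi),
        hG x y fun i hi => h i (mem_union_right _ hi)]

theorem Jun.comp {ι ι' : Type} {c : ℕ} (g : ι → ι') {F : (ι → Bool) → ℝ} (hF : F ∈ Jun ι c) :
    (fun x : ι' → Bool => F fun i => x (g i)) ∈ Jun ι' c := by
  classical
  induction hF using Submodule.span_induction with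
  | zero => exact zero_mem _
  | add _ _ _ _ h1 h2 => exact add_mem h1 h2
  | smul a _ _ h => exact Submodule.smul_mem _ a h
  | mem F hF =>
    obtain ⟨A, hA, hF⟩ := hF
    exact Submodule.subset_span ⟨A.image g, card_image_le.trans hA, fun x y h =>
      hF _ _ fun i hi => h _ (mem_image_of_mem g hi)⟩

theorem Jun.deg_le {n c : ℕ} {F : (Fin n → Bool) → ℝ} (hF : F ∈ Jun (Fin n) c) : deg F ≤ c := by
  classical
  refine Finset.sup_le fun S hS => ?_
  by_contra hc
  refine (mem_filter.1 hS).2 ?_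
  rw [fhat, div_eq_zero_iff]
  left
  clear hS
  induction hF using Submodule.span_induction with
  | zero => simp
  | add _ _ _ _ h1 h2 => simp only [Pi.add_apply, add_mul, sum_add_distrib, h1, h2, add_zero]
  | smul a _ _ h => simp only [Pi.smul_apply, smul_eq_mul, mul_assoc, ← mul_sum, h, mul_zero]
  | mem F hF =>
    obtain ⟨A, hA, hF⟩ := hF
    obtain ⟨i, hiS, hiA⟩ := exists_mem_notMem_of_card_lt_card (s := A) (t := S) (by omega)
    have h := expect_mul_indep i pm (fun x => F x * ∏ j ∈ S.erase i, pm (x j)) fun y a => by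
      rw [hF (update y i a) y fun j hj => update_of_ne (ne_of_mem_of_not_mem hj hiA) _ _]
      congr 1
      exact prod_congr rfl fun j hj => by rw [update_of_ne (ne_of_mem_erase hj)]
    have h0 : 𝔼 a, pm a = 0 := by rw [Fintype.expect_eq_sum_div_card]; simp [pm]
    rw [h0, zero_mul, Fintype.expect_eq_sum_div_card, div_eq_zero_iff] at h
    rcases h with h | h
    · rw [← h]
      exact sum_congr rfl fun x _ => by rw [← mul_prod_erase S _ hiS]; ring
    · simp at h

theorem Dep.jun {κ ι : Type} [Fintype ι] [DecidableEq ι] {c : ℕ} {φ : (ι → Bool) → ℝ}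
    (hφ : ∀ g : ℝ → ℝ, (fun x => g (φ x)) ∈ Jun ι c) (A : Finset κ) :
    ∀ H : (κ → ι → Bool) → ℝ, Dep φ A H →
      (fun x : κ × ι → Bool => H fun j i => x (j, i)) ∈ Jun (κ × ι) (A.card * c) := by
  classical
  induction A using Finset.induction with
  | empty =>
    intro H h
    exact Submodule.subset_span ⟨∅, by simp, fun x y _ => h _ _ (by simp)⟩
  | insert t A ht ih =>
    intro H h
    have e : (fun x : κ × ι → Bool => H fun j i => x (j, i)) = ∑ v ∈ univ.image φ,
        (fun x : κ × ι → Bool => if φ (fun i => x (t, i)) = v then (1 : ℝ) else 0) *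
          fun x => H (Function.update (fun j i => x (j, i)) t (invFun φ v)) := by
      funext x
      simp only [Finset.sum_apply, Pi.mul_apply, ite_mul, one_mul, zero_mul, sum_ite_eq,
        mem_image, mem_univ, true_and, exists_apply_eq_apply, if_true]
      refine h _ _ fun j _ => ?_
      by_cases hj : j = t
      · subst hj; rw [update_self, invFun_eq (f := φ) ⟨_, rfl⟩]
      · rw [update_of_ne hj]
    rw [e, card_insert_of_notMem ht, add_mul, one_mul, add_comm]
    refine Submodule.sum_mem _ fun v _ => Jun.mul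
      (Jun.comp (fun i => (t, i)) (hφ fun r => if r = v then 1 else 0))
      (ih (fun y => H (Function.update y t (invFun φ v))) fun y y' hy => h _ _ fun j hj => ?_)
    by_cases hjt : j = t
    · subst hjt; simp
    · rw [update_of_ne hjt, update_of_ne hjt]
      exact hy j ((mem_insert.1 hj).resolve_left hjt)

theorem expect_pm : 𝔼 a, pm a = 0 := by
  rw [Fintype.expect_eq_sum_div_card]; simp [pm]

/-- The coordinate sum. -/
def tot {ι : Type} [Fintype ι] (x : ι → Bool) : ℝ := ∑ i, pm (x i)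

theorem expect_tot {ι : Type} [Fintype ι] [DecidableEq ι] : 𝔼 x : ι → Bool, tot x = 0 := by
  simp only [tot, expect_sum_comm, expect_coord _ pm, expect_pm, sum_const_zero]

/-- `φ` is the conditional mean of the coordinate sum given `φ`, and all functions of `φ` have
degree at most `c`. -/
structure Good {ι : Type} [Fintype ι] [DecidableEq ι] (c : ℕ) (φ : (ι → Bool) → ℝ) : Prop where
  jun : ∀ g : ℝ → ℝ, (fun x => g (φ x)) ∈ Jun ι c
  cond : ∀ g : ℝ → ℝ, 𝔼 x, tot x * g (φ x) = 𝔼 x, φ x * g (φ x)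

section good

variable {κ ι : Type} [Fintype κ] [DecidableEq κ] [Fintype ι] [DecidableEq ι] {c : ℕ}
  {φ : (ι → Bool) → ℝ}

theorem Good.mean (h : Good c φ) : 𝔼 x, φ x = 0 := by
  have := h.cond fun _ => 1
  simp only [mul_one, expect_tot] at this
  exact this.symm

theorem expect_curry (F : (κ → ι → Bool) → ℝ) :
    𝔼 x : κ × ι → Bool, F (fun j i => x (j, i)) = 𝔼 y, F y :=
  Fintype.expect_equiv (Equiv.curry κ ι Bool) _ _ fun _ => rfl

theorem expect_tot_curry {S : (ι → Bool) → ℝ}
    (hS : ∀ g : ℝ → ℝ, 𝔼 a, tot a * g (φ a) = 𝔼 a, S a * g (φ a))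
    {H : (κ → ι → Bool) → ℝ} (h : Dep φ univ H) :
    𝔼 x : κ × ι → Bool, tot x * H (fun j i => x (j, i)) = 𝔼 y, (∑ j, S (y j)) * H y := by
  have e : ∀ x : κ × ι → Bool, tot x = ∑ j, tot fun i => x (j, i) := fun x => by
    simp only [tot, Fintype.sum_prod_type]
  simp only [e]
  rw [expect_curry fun y => (∑ j, tot (y j)) * H y]
  simp only [sum_mul, expect_sum_comm]
  exact sum_congr rfl fun j _ => h.expect_swap hS j

theorem Good.lift (h : Good c φ) {k : ℕ} {Ψ : (κ → ι → Bool) → ℝ} (h1 : Dep φ univ Ψ)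
    (h2 : ∀ g : ℝ → ℝ, (fun x : κ × ι → Bool => g (Ψ fun j i => x (j, i))) ∈ Jun (κ × ι) k)
    (h3 : ∀ g : ℝ → ℝ, 𝔼 y, (∑ j, φ (y j)) * g (Ψ y) = 𝔼 y, Ψ y * g (Ψ y)) :
    Good k fun x : κ × ι → Bool => Ψ fun j i => x (j, i) := by
  refine ⟨h2, fun g => ?_⟩
  rw [expect_tot_curry h.cond (H := fun y => g (Ψ y)) fun y y' hy => congrArg g (h1 y y' hy), h3,
    expect_curry fun y => Ψ y * g (Ψ y)]

theorem Good.sum (h : Good c φ) :
    Good (Fintype.card κ * c) fun x : κ × ι → Bool => ∑ j, φ fun i => x (j, i) := by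
  have h1 : Dep φ univ fun y : κ → ι → Bool => ∑ j, φ (y j) := fun y y' hy =>
    sum_congr rfl hy
  exact h.lift h1 (fun g => Dep.jun h.jun univ (fun y => g (∑ j, φ (y j))) fun y y' hy =>
    congrArg g (h1 y y' hy)) fun _ => rfl

end good

end Vale.Agent.P047
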