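import Mathlib

/-! Fourier coefficients and degree on the discrete cube. -/

namespace Vale.Agent.P047

/-- The sign in `{1, -1}` coded by a Boolean. -/
def pm (b : Bool) : ℝ := if b then -1 else 1

/-- The Fourier coefficient of `f` at `S`: the average of `f(x) * prod_{i in S} x_i`. -/
noncomputable def fhat {n : ℕ} (f : (Fin n → Bool) → ℝ) (S : Finset (Fin n)) : ℝ :=
  (∑ x : Fin n → Bool, f x * ∏ i ∈ S, pm (x i)) / 2 ^ n

open Classical in
/-- The degree: the largest size of a set with nonzero Fourier coefficient. -/
noncomputable def deg {n : ℕ} (f : (Fin n → Bool) → ℝ) : ℕ :=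
  (Finset.univ.filter fun S : Finset (Fin n) => fhat f S ≠ 0).sup Finset.card

end Vale.Agent.P047
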