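import Mathlib

/-! Sequential random rounding of a fractional packing of lines. -/

namespace Vale.Agent.P047

open Finset Function

/-- `D z = some t` says that the line through `z` in direction `t` is chosen. -/
def Valid {Q : Type} {n : ℕ} (D : (Fin n → Q) → Option (Fin n)) : Prop :=
  ∀ z t a, D z = some t → D (update z t a) = some t

theorem sum_prod_pi {ι Ω : Type} [Fintype ι] [DecidableEq ι] [Fintype Ω] (f : ι → Ω → ℝ) :
    ∑ ω : ι → Ω, ∏ i, f i (ω i) = ∏ i, ∑ a, f i a := by
  rw [prod_univ_sum, Fintype.piFinset_univ]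

theorem sum_prod_coord {ι Ω : Type} [Fintype ι] [DecidableEq ι] [Fintype Ω] (μ : ι → Ω → ℝ)
    (h : ∀ i, ∑ a, μ i a = 1) (i : ι) (f : Ω → ℝ) :
    ∑ ω : ι → Ω, (∏ j, μ j (ω j)) * f (ω i) = ∑ a, μ i a * f a := by
  have := sum_prod_pi fun j a => μ j a * if j = i then f a else 1
  simp only [prod_mul_distrib, prod_ite_eq', mem_univ, if_true] at this
  rw [this, prod_eq_single i (fun j _ hj => by simp [hj, h]) (by simp)]
  simp

open Classical in
theorem round (Q : Type) [Fintype Q] [Nonempty Q] (n : ℕ) :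
    ∀ ρ : Fin n → (Fin n → Q) → ℝ, (∀ t z, 0 ≤ ρ t z) → (∀ t z a, ρ t (update z t a) = ρ t z) →
    (∀ t z, ρ t z = 0 ∨ ρ t z ≤ ∏ a, (1 - ∑ s with t < s, ρ s (update z t a))) →
    ∃ μ : ((Fin n → Q) → Option (Fin n)) → ℝ, (∀ D, 0 ≤ μ D) ∧ ∑ D, μ D = 1 ∧
      (∀ D, μ D ≠ 0 → Valid D) ∧ ∀ z t, ∑ D, μ D * (if D z = some t then 1 else 0) = ρ t z := by
  induction n with
  | zero =>
    intro ρ _ _ _
    refine ⟨fun D => if D = fun _ => none then 1 else 0, fun D => by positivity,
      by rw [sum_ite_eq', if_pos (mem_univ _)],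
      fun D _ z t => t.elim0, fun z t => t.elim0⟩
  | succ n ih =>
    intro ρ h0 h1 h2
    have hu : ∀ (a : Q) (x : Fin n → Q) (t : Fin n) (b : Q),
        update (Fin.cons a x : Fin (n + 1) → Q) t.succ b = Fin.cons a (update x t b) :=
      fun a x t b => (Fin.cons_update (α := fun _ => Q) a x t b).symm
    have hs : ∀ (t : Fin n) (f : Fin (n + 1) → ℝ),
        ∑ s with t.succ < s, f s = ∑ s with t < s, f s.succ := fun t f => by
      simp [sum_filter, Fin.sum_univ_succ]
    choose μ m0 m1 m2 m3 using fun a : Q => ih (fun t x => ρ t.succ (Fin.cons a x))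
      (fun t x => h0 _ _) (fun t x b => by rw [← hu, h1]) fun t x => by
        simpa only [hs, hu] using h2 t.succ (Fin.cons a x)
    set u : Q → (Fin n → Q) → ℝ := fun a x => 1 - ∑ s : Fin n, ρ s.succ (Fin.cons a x) with hud
    have hnone : ∀ a x, ∑ D, μ a D * (if D x = none then 1 else 0) = u a x := fun a x => by
      simp only [hud, ← m3]
      rw [sum_comm, eq_sub_iff_add_eq, ← sum_add_distrib]
      refine Eq.trans (sum_congr rfl fun D _ => ?_) (m1 a)
      rw [← mul_sum]
      cases D x <;> simp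
    obtain ⟨a₀⟩ := ‹Nonempty Q›
    set π : (Fin n → Q) → ℝ := fun x => ρ 0 (Fin.cons a₀ x) / ∏ a, u a x with hπ
    have hπ1 : ∀ x, 0 ≤ π x ∧ π x ≤ 1 ∧ π x * ∏ a, u a x = ρ 0 (Fin.cons a₀ x) := fun x => by
      rcases (h0 0 (Fin.cons a₀ x)).eq_or_lt with h | h
      · simp [hπ, ← h]
      · have h3 := (h2 0 (Fin.cons a₀ x)).resolve_left h.ne'
        have h4 : ∀ a, ∑ s with 0 < s, ρ s (update (Fin.cons a₀ x : Fin (n + 1) → Q) 0 a) =
            ∑ s : Fin n, ρ s.succ (Fin.cons a x) := fun a => by
          simp [sum_filter, Fin.sum_univ_succ, Fin.update_cons_zero]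
        simp only [h4] at h3
        have h5 := h.trans_le h3
        exact ⟨div_nonneg h.le h5.le, (div_le_one h5).2 h3, div_mul_cancel₀ _ h5.ne'⟩
    set ν : (Fin n → Q) → Bool → ℝ := fun x b => if b then π x else 1 - π x with hν
    have hν1 : ∀ x, ∑ b, ν x b = 1 := fun x => by simp [hν]
    let step : (Q → (Fin n → Q) → Option (Fin n)) × ((Fin n → Q) → Bool) →
        (Fin (n + 1) → Q) → Option (Fin (n + 1)) := fun ω z =>
      if (∀ a, ω.1 a (Fin.tail z) = none) ∧ ω.2 (Fin.tail z) then some 0
      else (ω.1 (z 0) (Fin.tail z)).map Fin.succ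
    let p : (Q → (Fin n → Q) → Option (Fin n)) × ((Fin n → Q) → Bool) → ℝ := fun ω =>
      (∏ a, μ a (ω.1 a)) * ∏ x, ν x (ω.2 x)
    have p0 : ∀ ω, 0 ≤ p ω := fun ω => mul_nonneg (prod_nonneg fun a _ => m0 _ _)
      (prod_nonneg fun x _ => by
        simp only [hν]; split_ifs; exacts [(hπ1 x).1, sub_nonneg.2 (hπ1 x).2.1])
    have key : ∀ f : ((Fin (n + 1) → Q) → Option (Fin (n + 1))) → ℝ,
        ∑ D, (∑ ω with step ω = D, p ω) * f D = ∑ ω, p ω * f (step ω) := fun f => by
      rw [← sum_fiberwise univ step]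
      refine sum_congr rfl fun D _ => ?_
      rw [sum_mul]
      exact sum_congr rfl fun ω hω => by rw [(mem_filter.1 hω).2]
    have split : ∀ (f : (Q → (Fin n → Q) → Option (Fin n)) → ℝ) (g : ((Fin n → Q) → Bool) → ℝ),
        ∑ ω, p ω * (f ω.1 * g ω.2) =
          (∑ w, (∏ a, μ a (w a)) * f w) * ∑ c, (∏ x, ν x (c x)) * g c := fun f g => by
      rw [sum_mul_sum, Fintype.sum_prod_type]
      exact sum_congr rfl fun w _ => sum_congr rfl fun c _ => by simp only [p]; ring
    refine ⟨fun D => ∑ ω with step ω = D, p ω, fun D => sum_nonneg fun ω _ => p0 ω, ?_, ?_, ?_⟩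
    · have := split (fun _ => 1) fun _ => 1
      simp only [mul_one, sum_prod_pi, m1, hν1, prod_const_one] at this
      rw [sum_fiberwise univ step, this]
    · intro D hD
      obtain ⟨ω, hω, hp⟩ := exists_ne_zero_of_sum_ne_zero hD
      obtain rfl := (mem_filter.1 hω).2
      have hv : ∀ a, Valid (ω.1 a) := fun a =>
        m2 a _ (prod_ne_zero_iff.1 (left_ne_zero_of_mul hp) a (mem_univ a))
      intro z t a hz
      obtain ⟨b, x, rfl⟩ : ∃ b x, z = Fin.cons b x := ⟨z 0, Fin.tail z, by simp⟩
      induction t using Fin.cases with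
      | zero =>
        simp only [step, Fin.update_cons_zero, Fin.tail_cons, Fin.cons_zero] at hz ⊢
        split_ifs at hz with h
        · rw [if_pos h]
        · cases h' : ω.1 b x <;> simp [h'] at hz
      | succ t =>
        simp only [step, hu, Fin.tail_cons, Fin.cons_zero] at hz ⊢
        split_ifs at hz with h
        · exact absurd (Option.some.inj hz) (Fin.succ_ne_zero t).symm
        · have h' : ω.1 b x = some t := by
            cases h' : ω.1 b x <;> simpa [h'] using hz
          have h'' := hv b x t a h'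
          rw [if_neg fun h => by simp [h.1 b] at h'', h'']
          rfl
    · intro z t
      obtain ⟨b, x, rfl⟩ : ∃ b x, z = Fin.cons b x := ⟨z 0, Fin.tail z, by simp⟩
      rw [key fun D => if D (Fin.cons b x) = some t then 1 else 0]
      induction t using Fin.cases with
      | zero =>
        have := split (fun w => ∏ a, if w a x = none then 1 else 0) fun c => if c x then 1 else 0
        rw [sum_prod_coord ν hν1 x fun b => if b then 1 else 0] at this
        simp only [← prod_mul_distrib, sum_prod_pi fun a D => μ a D * if D x = none then 1 else 0,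
          hnone] at this
        rw [← h1 0 _ a₀, Fin.update_cons_zero, ← (hπ1 x).2.2, mul_comm]
        refine Eq.trans (sum_congr rfl fun ω _ => ?_) (this.trans (by simp [hν]))
        congr 1
        simp only [step, Fin.tail_cons, Fin.cons_zero, prod_boole, mem_univ, true_imp_iff]
        by_cases h : ∀ a, ω.1 a x = none
        · cases h' : ω.2 x <;> simp [h]
        · cases h' : ω.1 b x <;> simp [h]
      | succ t =>
        have := split (fun w => if w b x = some t then 1 else 0) fun _ => 1
        rw [sum_prod_coord μ m1 b fun D => if D x = some t then 1 else 0, m3] at this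
        simp only [mul_one, sum_prod_pi, hν1, prod_const_one] at this
        rw [← this]
        refine sum_congr rfl fun ω _ => ?_
        congr 1
        simp only [step, Fin.tail_cons, Fin.cons_zero]
        cases h' : ω.1 b x with
        | none =>
          by_cases h : (∀ a, ω.1 a x = none) ∧ ω.2 x = true
          · rw [if_pos h]; simp [(Fin.succ_ne_zero t).symm]
          · rw [if_neg h]; simp
        | some s =>
          have h : ¬ ((∀ a, ω.1 a x = none) ∧ ω.2 x = true) := fun h => by simp [h.1 b] at h'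
          rw [if_neg h]
          simp

open scoped BigOperators in
theorem round_exists {Q : Type} [Fintype Q] [Nonempty Q] {N : ℕ}
    (ρ : Fin (N + 1) → (Fin (N + 1) → Q) → ℝ) (h0 : ∀ t z, 0 ≤ ρ t z)
    (h1 : ∀ t z a, ρ t (update z t a) = ρ t z) (h2 : ∀ z, ρ (Fin.last N) z ≤ 1) {u : ℝ}
    (hu : 0 ≤ u) (h3 : ∀ t z, t ≠ Fin.last N → ρ t z = 0 ∨
      (ρ t z ≤ u ^ Fintype.card Q ∧ ∀ a, u ≤ 1 - ∑ s, ρ s (update z t a))) :
    (∀ z, ∑ t, ρ t z ≤ 1) ∧ ∀ {Y : Type} [Fintype Y] (π : Y → Fin (N + 1) → Q)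
      (G : Y → Option (Fin (N + 1)) → ℝ), ∃ D, Valid D ∧
      𝔼 y, (∑ t, ρ t (π y) * G y (some t) + (1 - ∑ t, ρ t (π y)) * G y none) ≤
        𝔼 y, G y (D (π y)) := by
  classical
  obtain ⟨μ, m0, m1, m2, m3⟩ := round Q (N + 1) ρ h0 h1 fun t z => by
    by_cases ht : t = Fin.last N
    · subst ht
      right
      simpa [filter_false_of_mem fun s _ => (Fin.le_last s).not_gt] using h2 z
    · refine (h3 t z ht).imp id fun h => h.1.trans ?_
      rw [← card_univ, ← prod_const]
      refine prod_le_prod (fun _ _ => hu) fun a _ => (h.2 a).trans (sub_le_sub_left ?_ _)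
      exact sum_le_sum_of_subset_of_nonneg (subset_univ _) fun s _ _ => h0 _ _
  have key : ∀ (z) (g : Option (Fin (N + 1)) → ℝ), ∑ D, μ D * g (D z) =
      ∑ t, ρ t z * g (some t) + (1 - ∑ t, ρ t z) * g none := fun z g => by
    simp only [← m3, sum_mul, sub_mul]
    rw [sum_comm, sum_comm (f := fun t D => μ D * (if D z = some t then 1 else 0) * g none),
      one_mul, show g none = ∑ D, μ D * g none by rw [← sum_mul, m1, one_mul],
      ← sum_sub_distrib, ← sum_add_distrib]
    refine sum_congr rfl fun D _ => ?_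
    cases D z <;> simp [← sum_mul, m1]
  refine ⟨fun z => ?_, fun π G => ?_⟩
  · have := key z fun o => if o = none then 1 else 0
    simp only [reduceCtorEq, if_false, mul_zero, sum_const_zero, if_true, mul_one, zero_add] at this
    rw [← sub_nonneg, ← this]
    exact sum_nonneg fun D _ => mul_nonneg (m0 D) (by positivity)
  · simp only [← key, expect_sum_comm, ← mul_expect]
    obtain ⟨D, hD, hmax⟩ := exists_max_image (univ.filter fun D => μ D ≠ 0)
      (fun D => 𝔼 y, G y (D (π y))) (by
        obtain ⟨D, -, hD⟩ := exists_ne_zero_of_sum_ne_zero (m1.trans_ne one_ne_zero)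
        exact ⟨D, by simpa using hD⟩)
    refine ⟨D, m2 D (mem_filter.1 hD).2, ?_⟩
    refine le_trans (sum_le_sum fun D' _ => ?_)
      (show ∑ D', μ D' * 𝔼 y, G y (D (π y)) ≤ _ by rw [← sum_mul, m1, one_mul])
    by_cases h : μ D' = 0
    · simp [h]
    · exact mul_le_mul_of_nonneg_left (hmax D' (by simpa using h)) (m0 _)

end Vale.Agent.P047
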