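import Vale.Agent.P047.Pack
import Vale.Agent.P047.Round

/-! From a packing of coarse lines to a packing of fine lines inside one slab. -/

namespace Vale.Agent.P047

open Finset Function
open scoped BigOperators

/-- Integer part, set to zero outside the core. -/
noncomputable def cz (J : ℕ) (x : ℝ) : ℤ := if |⌊x⌋| ≤ J then ⌊x⌋ else 0

/-- Fractional part, set to zero outside the core. -/
noncomputable def fr (J : ℕ) (x : ℝ) : ℝ := if |⌊x⌋| ≤ J then Int.fract x else 0

/-- The value outside the core. -/
noncomputable def ex (J : ℕ) (x : ℝ) : ℝ := if |⌊x⌋| ≤ J then 0 else x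

theorem cz_abs (J : ℕ) (x : ℝ) : |cz J x| ≤ J := by
  unfold cz; split_ifs with h
  · exact h
  · simp

theorem cz_add (J : ℕ) (x : ℝ) : x = cz J x + fr J x + ex J x := by
  unfold cz fr ex; split_ifs <;> simp

theorem fr_nonneg (J : ℕ) (x : ℝ) : 0 ≤ fr J x := by
  unfold fr; split_ifs <;> simp

theorem fr_lt (J : ℕ) (x : ℝ) : fr J x < 1 := by
  unfold fr; split_ifs <;> simp [Int.fract_lt_one]

/-- The coarse symbol. -/
noncomputable def cq (J : ℕ) (x : ℝ) : Set.Icc (-J : ℤ) J := ⟨cz J x, abs_le.1 (cz_abs J x)⟩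

/-- The bound on the distance to the centre. -/
noncomputable def bnd {α : Type} {N : ℕ} (ψ : α → ℝ) (J r : ℕ) (σ : ℤ) (y : Fin (N + 1) → α) : ℝ :=
  |((∑ s, cz J (ψ (y s)) - σ : ℤ) : ℝ)| + r + 1 + |∑ s, ex J (ψ (y s))|

/-- The gain as a function of the chosen direction. -/
noncomputable def gn {N : ℕ} (r : ℕ) (V B : ℝ) (o : Option (Fin (N + 1))) : ℝ :=
  r * (if o = none then V - B ^ 2 else 0) - 2 * if o = some (Fin.last N) then 0 else B ^ 2

theorem fine {α : Type} [Fintype α] {N J r : ℕ} (ψ : α → ℝ) {V : ℝ} (hV : 0 ≤ V) (σ : ℤ)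
    {D : (Fin (N + 1) → Set.Icc (-J : ℤ) J) → Option (Fin (N + 1))} (hD : Valid D) :
    ∃ (s : ℝ) (E : Fin (N + 1) → (Fin (N + 1) → α) → ℝ), Packing ψ E ∧
      𝔼 y, gn r V (bnd ψ J r σ y) (D fun s => cq J (ψ (y s))) ≤
        (N + r + 1) * 𝔼 y, (1 - ∑ t, E t y) * (V - (∑ j, ψ (y j) - s) ^ 2) := by
  classical
  set o := Fin.last N with ho
  set z : (Fin (N + 1) → α) → Fin (N + 1) → Set.Icc (-J : ℤ) J := fun y s => cq J (ψ (y s))
    with hz
  set k : Finset (Fin (N + 1)) → (Fin (N + 1) → α) → ℤ := fun A y => ⌊∑ s ∈ A, fr J (ψ (y s))⌋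
    with hk
  let P : ℤ → Fin (N + 1) → (Fin (N + 1) → α) → Prop := fun θ t y =>
    if t = o then ¬ (θ ≤ k (univ.erase o) y ∧ k (univ.erase o) y < θ + r) ∨ D (z y) = some o
    else D (z y) = some t ∧ θ ≤ k ((univ.erase o).erase t) y ∧
      k ((univ.erase o).erase t) y + 2 ≤ θ + r
  have hk1 : ∀ t y, t ≠ o → k ((univ.erase o).erase t) y ≤ k (univ.erase o) y ∧
      k (univ.erase o) y ≤ k ((univ.erase o).erase t) y + 1 := fun t y ht => by
    have e := add_sum_erase (univ.erase o) (fun s => fr J (ψ (y s))) (a := t) (by simpa using ht)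
    have := fr_nonneg J (ψ (y t))
    have := fr_lt J (ψ (y t))
    simp only [hk]
    rw [← Int.floor_add_one]
    exact ⟨Int.floor_mono (by linarith), Int.floor_mono (by linarith)⟩
  have hDz : ∀ t y y', (∀ j ∈ univ.erase t, ψ (y j) = ψ (y' j)) → D (z y) = some t →
      D (z y') = some t := fun t y y' h h' => by
    have := hD _ t (z y' t) h'
    rwa [show update (z y) t (z y' t) = z y' from ?_] at this
    funext j
    by_cases hj : j = t
    · subst hj; simp
    · simp [update_of_ne hj, hz, h j (by simpa using hj)]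
  have hpack : ∀ θ, Packing ψ fun t y => if P θ t y then 1 else 0 := fun θ => by
    refine ⟨fun t y => by split_ifs <;> simp, fun t s y ht hs => ?_, fun t y y' h => ?_⟩
    · have ht : P θ t y := by by_contra h; simp [h] at ht
      have hs : P θ s y := by by_contra h; simp [h] at hs
      by_cases h1 : t = o <;> by_cases h2 : s = o <;> simp only [P, h1, h2, if_true, if_false] at ht hs
      · rw [h1, h2]
      · have := hk1 s y h2
        rcases ht with ht | ht
        · exact absurd ⟨by omega, by omega⟩ ht
        · exact absurd (Option.some.inj (hs.1.symm.trans ht)) h2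
      · have := hk1 t y h1
        rcases hs with hs | hs
        · exact absurd ⟨by omega, by omega⟩ hs
        · exact absurd (Option.some.inj (ht.1.symm.trans hs)) h1
      · exact Option.some.inj (ht.1.symm.trans hs.1)
    · have h1 : D (z y) = some t ↔ D (z y') = some t :=
        ⟨hDz t y y' h, hDz t y' y fun j hj => (h j hj).symm⟩
      have h2 : ∀ A, t ∉ A → k A y = k A y' := fun A hA => by
        simp only [hk]
        rw [sum_congr rfl fun s hs => by
          rw [h s (by simpa using ne_of_mem_of_not_mem hs hA)]]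
      refine if_congr ?_ rfl rfl
      by_cases ht : t = o
      · subst ht; simp only [P, if_true, h1, h2 _ (notMem_erase _ _)]
      · simp only [P, ht, if_false, h1, h2 _ (notMem_erase _ _)]
  set M : ℤ → (Fin (N + 1) → α) → ℝ := fun θ y =>
    (if θ ≤ k (univ.erase o) y ∧ k (univ.erase o) y < θ + r then
      if D (z y) = none then V - bnd ψ J r σ y ^ 2 else 0 else 0) -
    (if θ = k (univ.erase o) y then if D (z y) = some o then 0 else bnd ψ J r σ y ^ 2 else 0) -
    (if θ = k (univ.erase o) y + 1 - r then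
      if D (z y) = some o then 0 else bnd ψ J r σ y ^ 2 else 0) with hM
  have hpt : ∀ θ y, M θ y ≤ (1 - ∑ t, if P θ t y then 1 else 0) *
      (V - (∑ j, ψ (y j) - (σ + θ)) ^ 2) := fun θ y => by
    have hB := sq_nonneg (bnd ψ J r σ y)
    rcases (hpack θ).cases y with h | ⟨t, h⟩
    · have h' : ∀ t, ¬ P θ t y := fun t ht => by simpa [ht] using h t
      have h1 := h' o
      simp only [P, if_true, not_or, not_not] at h1
      have h2 : (∑ j, ψ (y j) - (σ + θ)) ^ 2 ≤ bnd ψ J r σ y ^ 2 := by
        refine sq_le_sq' ?_ ?_ <;>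
        · have e : ∑ j, ψ (y j) = ((∑ s, cz J (ψ (y s)) : ℤ) : ℝ) + (fr J (ψ (y o)) +
              ∑ s ∈ univ.erase o, fr J (ψ (y s))) + ∑ s, ex J (ψ (y s)) := by
            rw [add_sum_erase univ (fun s => fr J (ψ (y s))) (mem_univ o)]
            push_cast
            rw [← sum_add_distrib, ← sum_add_distrib]
            exact sum_congr rfl fun s _ => cz_add J _
          have a1 := Int.le_floor.1 h1.1.1
          have a2 := Int.floor_lt.1 h1.1.2
          have := fr_nonneg J (ψ (y o))
          have := fr_lt J (ψ (y o))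
          have := abs_le.1 (le_refl |((∑ s, cz J (ψ (y s)) - σ : ℤ) : ℝ)|)
          have := abs_le.1 (le_refl |∑ s, ex J (ψ (y s))|)
          have : (0 : ℝ) ≤ r := by positivity
          simp only [bnd, e]
          push_cast at *
          linarith
      simp only [h, sum_const_zero, sub_zero, one_mul, hM, h1.1, h1.2, and_self, if_true, if_false]
      cases hD' : D (z y) with
      | none => simp only [if_true]; split_ifs <;> linarith
      | some t =>
        have ht : t ≠ o := fun e => h1.2 (e ▸ hD')
        have h3 := h' t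
        have := hk1 t y ht
        simp only [P, ht, if_false, hD', true_and] at h3
        simp only [reduceCtorEq, if_false]
        split_ifs <;> first | linarith | omega
    · have ht : P θ t y := by by_contra h'; simpa [h'] using h t
      simp only [h, sum_ite_eq', mem_univ, if_true, sub_self, zero_mul, hM]
      have : (if θ ≤ k (univ.erase o) y ∧ k (univ.erase o) y < θ + r then
          if D (z y) = none then V - bnd ψ J r σ y ^ 2 else 0 else 0) = 0 := by
        by_cases hto : t = o <;> simp only [P, hto, if_true, if_false] at ht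
        · rcases ht with ht | ht <;> simp [ht]
        · simp [ht.1]
      rw [this]
      split_ifs <;> linarith
  have hsum : ∀ y, gn r V (bnd ψ J r σ y) (D (z y)) ≤ ∑ θ ∈ Icc (-r : ℤ) N, M θ y := fun y => by
    have k0 : 0 ≤ k (univ.erase o) y :=
      Int.floor_nonneg.2 (sum_nonneg fun s _ => fr_nonneg _ _)
    have k1 : k (univ.erase o) y ≤ N := by
      have := sum_le_card_nsmul (univ.erase o) (fun s => fr J (ψ (y s))) 1 fun s _ => (fr_lt _ _).le
      simp only [card_erase_of_mem (mem_univ o), card_univ, Fintype.card_fin, Nat.add_sub_cancel,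
        nsmul_eq_mul, mul_one] at this
      exact (Int.floor_mono this).trans (Int.floor_natCast N).le
    have hB := sq_nonneg (bnd ψ J r σ y)
    simp only [hM, gn, ← ho]
    have hb : 0 ≤ if D (z y) = some o then 0 else bnd ψ J r σ y ^ 2 := by positivity
    generalize (if D (z y) = some o then 0 else bnd ψ J r σ y ^ 2) = b at hb
    generalize (if D (z y) = none then V - bnd ψ J r σ y ^ 2 else 0) = a
    simp only [sum_sub_distrib, sum_ite_eq', ← sum_filter, sum_const]
    rw [show (Icc (-r : ℤ) N).filter (fun θ => θ ≤ k (univ.erase o) y ∧ k (univ.erase o) y < θ + r) =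
      Icc (k (univ.erase o) y - r + 1) (k (univ.erase o) y) from by
        ext θ; simp only [mem_filter, mem_Icc]; omega, Int.card_Icc,
      show (k (univ.erase o) y + 1 - (k (univ.erase o) y - r + 1)).toNat = r by omega, nsmul_eq_mul]
    split_ifs <;> linarith
  obtain ⟨θ, -, hθ⟩ := exists_max_image (Icc (-r : ℤ) N) (fun θ => 𝔼 y, M θ y)
    ⟨0, by simp⟩
  refine ⟨σ + θ, _, hpack θ, (expect_le_expect fun y _ => hsum y).trans ?_⟩
  rw [expect_sum_comm]
  refine (sum_le_card_nsmul _ _ _ hθ).trans ?_
  rw [Int.card_Icc, show ((N : ℤ) + 1 - -r).toNat = N + r + 1 by omega, nsmul_eq_mul]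
  push_cast
  exact mul_le_mul_of_nonneg_left (expect_le_expect fun y _ => hpt θ y) (by positivity)

end Vale.Agent.P047
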