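import Vale.Agent.P047.Rates

/-! The packing with a positive gain. -/

namespace Vale.Agent.P047

open Finset Function
open scoped BigOperators

variable {α : Type} [Fintype α] [Nonempty α] {ψ : α → ℝ} {J H H' r N : ℕ} {p τ c : ℝ}

theorem sum_win (hJ : H ≤ J) (hH : 1 ≤ H) {F : ℤ → ℝ} {B : ℝ} (hB : 0 ≤ B)
    (hF : ∀ l : ℤ, |l| ≤ J + 2 * H → F l ≤ B) :
    ∑ l ∈ Icc (-(J + 2 * H) : ℤ) (J + 2 * H), F l ≤ 7 * J * B := by
  refine (sum_le_card_nsmul _ _ B fun l hl => hF l (abs_le.2 (mem_Icc.1 hl))).trans ?_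
  rw [Int.card_Icc, nsmul_eq_mul]
  refine mul_le_mul_of_nonneg_right ?_ hB
  exact_mod_cast (show ((J : ℤ) + 2 * H + 1 - -(J + 2 * H)).toNat ≤ 7 * J by omega)

omit [Nonempty α] in
open Classical in
theorem sum_rest (hJ : H ≤ J) (hH : 1 ≤ H) (hc : 0 ≤ c) {z : Fin (N + 1) → ℤ} (hz : ∀ s, |z s| ≤ J)
    {F : ℤ → ℝ} {B : ℝ} (hF : ∀ l : ℤ, |l| ≤ J + 2 * H → |F l| ≤ B) :
    (𝔼 a, (64 / 128 * F (cz J (ψ a)) + 1 / 128 * F (cz J (ψ a) + 2 * H))) - c * (7 * J * B) -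
      (∑ t ∈ univ.erase (Fin.last N), (nb H H' (z (Fin.last N)) F (z t) +
        (if El ψ J c t z then 0 else 1) * B)) / N ≤
    ∑ l ∈ Icc (-(J + 2 * H) : ℤ) (J + 2 * H),
      (bb ψ J H c l - ∑ t ∈ univ.erase (Fin.last N), rt ψ J H H' c t z l) * F l := by
  have hB : 0 ≤ B := (abs_nonneg _).trans (hF 0 (by simp; positivity))
  simp only [sub_mul, sum_sub_distrib, sum_bb, sum_mul]
  rw [sum_comm, sum_div]
  have h1 := sum_win hJ hH hB (F := fun l => -F l) fun l hl => (neg_le_abs _).trans (hF l hl)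
  rw [sum_neg_distrib] at h1
  refine sub_le_sub (by nlinarith) (sum_le_sum fun t ht => ?_)
  simp only [rt, if_neg (ne_of_mem_erase ht)]
  split_ifs with h
  · simp only [div_mul_eq_mul_div, ← sum_div, sum_nn _ _ (hz t), zero_mul, add_zero, le_refl]
  · have := abs_le.1 (hz t)
    have a1 := abs_le.1 (hF (z t) (abs_le.2 (by omega)))
    have a2 := abs_le.1 (hF (z t + H) (abs_le.2 (by omega)))
    have a3 := abs_le.1 (hF (z t + 2 * H) (abs_le.2 (by omega)))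
    simp only [zero_mul, sum_const_zero]
    refine div_nonneg ?_ (by positivity)
    unfold nb
    split_ifs <;> linarith

theorem win_le (hJ : H ≤ J) (hr : r + 1 ≤ H) {l b : ℤ} (hl : |l| ≤ J + 2 * H) (hb : |b| ≤ J) :
    |((l + b : ℤ) : ℝ)| + r + 1 ≤ 5 * J := by
  have := abs_add_le l b
  exact_mod_cast (show |l + b| + r + 1 ≤ 5 * J by omega)

theorem gf_le (hJ : H ≤ J) (hr : r + 1 ≤ H) {l b : ℤ} (hl : |l| ≤ J + 2 * H) (hb : |b| ≤ J) :
    |gf H r (l + b)| ≤ (5 * J) ^ 2 := by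
  have h1 := pow_le_pow_left₀ (by positivity) (win_le hJ hr hl hb) 2
  have h2 : (H : ℝ) ^ 2 ≤ (5 * J) ^ 2 :=
    pow_le_pow_left₀ (by positivity) (by exact_mod_cast (show H ≤ 5 * J by omega)) 2
  rw [gf, abs_le]
  constructor <;> nlinarith [sq_nonneg (H : ℝ), sq_nonneg (|((l + b : ℤ) : ℝ)| + r + 1)]

theorem sum_edge (hJ : H ≤ J) (hr : r + 1 ≤ H) (hc : 0 ≤ c) (h2 : 𝔼 a, ψ a ^ 2 = H ^ 2) {b : ℤ}
    (hb : |b| ≤ J) : ∑ l ∈ Icc (-(J + 2 * H) : ℤ) (J + 2 * H),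
      bb ψ J H c l * (|((l + b : ℤ) : ℝ)| + r + 1) ^ 2 ≤
      195 / 128 * (13 * H ^ 2 + b ^ 2) + c * (7 * J * (5 * J) ^ 2) := by
  rw [sum_bb]
  refine add_le_add ?_ (mul_le_mul_of_nonneg_left (sum_win hJ (by omega) (by positivity)
    fun l hl => pow_le_pow_left₀ (by positivity) (win_le hJ hr hl hb) 2) hc)
  have hr' : (r : ℝ) + 1 ≤ H := by exact_mod_cast hr
  have key : ∀ x k : ℝ, 0 ≤ k → k ≤ 2 * H →
      (|x + k + b| + r + 1) ^ 2 ≤ 3 * (x ^ 2 + b ^ 2 + 9 * H ^ 2) := fun x k h0 h1 => by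
    have h3 : |x + k + b| + r + 1 ≤ |x| + |(b : ℝ)| + 3 * H := by
      have := abs_add_three x k b
      rw [abs_of_nonneg h0] at this
      linarith
    refine (pow_le_pow_left₀ (by positivity) h3 2).trans ?_
    nlinarith [sq_abs x, sq_abs (b : ℝ), sq_nonneg (|x| - |(b : ℝ)|), sq_nonneg (|x| - 3 * H),
      sq_nonneg (|(b : ℝ)| - 3 * H)]
  refine (expect_le_expect (g := fun a => 195 / 128 * (cz J (ψ a) : ℝ) ^ 2 +
    195 / 128 * (b ^ 2 + 9 * H ^ 2)) fun a _ => ?_).trans ?_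
  · have a1 := key (cz J (ψ a)) 0 le_rfl (by positivity)
    have a2 := key (cz J (ψ a)) (2 * H) (by positivity) le_rfl
    rw [add_zero] at a1
    push_cast
    linarith
  · have := cz_sq (J := J) h2 (by omega)
    simp only [expect_add_distrib, ← mul_expect, Fintype.expect_const]
    linarith

/-- The rates on the coarse grid. -/
noncomputable def rho (ψ : α → ℝ) (J H H' : ℕ) (c : ℝ) (σ : ℤ) (t : Fin (N + 1))
    (z : Fin (N + 1) → Set.Icc (-J : ℤ) J) : ℝ :=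
  rt ψ J H H' c t (fun s => z s) (∑ s ∈ univ.erase (Fin.last N), (z s : ℤ) - σ)

theorem rho_round (hc : 0 < c) (hc3 : c ≤ 1 / 4) (hN1 : (2 / c) ^ (2 * J + 1) ≤ N)
    (hP : ∀ l : ℤ, |l| ≤ J + 2 * H →
      8 * wt ψ J (l - H) ≤ 64 * wt ψ J l + wt ψ J (l - 2 * H) + 37 * c) (σ : ℤ) :
    (∀ z, ∑ t, rho (N := N) ψ J H H' c σ t z ≤ 1) ∧ ∀ {Y : Type} [Fintype Y]
      (π : Y → Fin (N + 1) → Set.Icc (-J : ℤ) J) (G : Y → Option (Fin (N + 1)) → ℝ),
      ∃ D, Valid D ∧ 𝔼 y, (∑ t, rho ψ J H H' c σ t (π y) * G y (some t) +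
        (1 - ∑ t, rho ψ J H H' c σ t (π y)) * G y none) ≤ 𝔼 y, G y (D (π y)) := by
  classical
  have hN : (0 : ℝ) < N := lt_of_lt_of_le (by positivity) hN1
  set o := Fin.last N with ho
  haveI : Nonempty (Set.Icc (-J : ℤ) J) := ⟨cq J 0⟩
  have hupd : ∀ (z : Fin (N + 1) → Set.Icc (-J : ℤ) J) t a, t ≠ o →
      ∑ s ∈ univ.erase o, (update z t a s : ℤ) - a = ∑ s ∈ univ.erase o, (z s : ℤ) - z t :=
    fun z t a ht => by
      have ht' : t ∈ univ.erase o := by simpa using ht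
      rw [← add_sum_erase _ _ ht', ← add_sum_erase _ (fun s => (z s : ℤ)) ht', update_self,
        sum_congr rfl fun s hs => by rw [update_of_ne (ne_of_mem_erase hs)]]
      ring
  have hEl : ∀ (z : Fin (N + 1) → Set.Icc (-J : ℤ) J) t a,
      El ψ J c t (fun s => update z t a s) ↔ El ψ J c t fun s => z s := fun z t a => by
    refine forall₂_congr fun j _ => ?_
    beta_reduce
    rw [sum_congr rfl fun s hs => by rw [update_of_ne (ne_of_mem_erase hs)]]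
  refine round_exists (rho ψ J H H' c σ) (fun t z => rt_nonneg hc3 _ _ _) (fun t z a => ?_)
    (fun z => ?_) (u := c / 2) (by positivity) fun t z ht => ?_
  · by_cases ht : t = o
    · subst ht
      simp only [rho, rt, if_pos ho]
      rw [sum_congr rfl fun s hs => by rw [update_of_ne (ne_of_mem_erase hs)]]
    · simp only [rho, rt, ← ho, if_neg ht, hEl, update_self, update_of_ne (Ne.symm ht)]
      rw [sub_right_comm, hupd z t a ht, sub_right_comm]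
  · simp only [rho, rt, if_true]; exact sub_le_self _ (bb_nonneg hc.le _)
  · rw [or_iff_not_imp_left]
    intro h
    simp only [rho, rt, if_neg ht] at h
    have h1 : El ψ J c t fun s => z s := by by_contra h1; simp [h1] at h
    rw [if_pos h1] at h
    have h3 := nn_supp (div_ne_zero_iff.1 h).1
    refine ⟨?_, fun a => rt_slack hc (by exact_mod_cast hN) hP (fun s => abs_le.2 (update z t a s).2)
      ht ((hEl z t a).2 h1) ?_⟩
    · simp only [rho, rt, if_neg ht, if_pos h1]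
      rw [div_le_iff₀ hN, Fintype.card_Icc, Int.card_Icc,
        show ((J : ℤ) + 1 - -J).toNat = 2 * J + 1 by omega]
      refine (nn_le _ _).trans (le_trans (le_of_eq ?_)
        (mul_le_mul_of_nonneg_left hN1 (by positivity)))
      rw [← mul_pow, show c / 2 * (2 / c) = 1 by field_simp, one_pow]
    · have := hupd z t a ht
      have := a.2.1
      have := a.2.2
      rw [← ho] at h3 ⊢
      rw [abs_le]
      omega

/-- The coarse vector. -/
noncomputable def zz (ψ : α → ℝ) (J : ℕ) (y : Fin (N + 1) → α) (s : Fin (N + 1)) : ℤ :=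
  cz J (ψ (y s))

/-- The error from values outside the core. -/
noncomputable def xe (ψ : α → ℝ) (J : ℕ) (y : Fin (N + 1) → α) : ℝ :=
  (10 * J + N + 1) * ∑ s, ex J (ψ (y s)) ^ 2

/-- The expected gain at location `l`. -/
noncomputable def eg (ψ : α → ℝ) (J H H' r : ℕ) (c : ℝ) (y : Fin (N + 1) → α) (l : ℤ) : ℝ :=
  r * ((bb ψ J H c l - ∑ t ∈ univ.erase (Fin.last N), rt ψ J H H' c t (zz ψ J y) l) *
    gf H r (l + zz ψ J y (Fin.last N))) -
    2 * (bb ψ J H c l * (|((l + zz ψ J y (Fin.last N) : ℤ) : ℝ)| + r + 1) ^ 2) -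
    (r + 2) * xe ψ J y * (bb ψ J H c l * 1)

theorem eg_le (hJ : H ≤ J) (hr : r + 1 ≤ H) (hc3 : c ≤ 1 / 4) (σ : ℤ) (y : Fin (N + 1) → α)
    (a0 : ∑ t, rho ψ J H H' c σ t (fun s => cq J (ψ (y s))) ≤ 1) :
    eg ψ J H H' r c y (∑ s ∈ univ.erase (Fin.last N), zz ψ J y s - σ) ≤
      ∑ t, rho ψ J H H' c σ t (fun s => cq J (ψ (y s))) * gn r (H ^ 2) (bnd ψ J r σ y) (some t) +
        (1 - ∑ t, rho ψ J H H' c σ t (fun s => cq J (ψ (y s)))) *
          gn (N := N) r (H ^ 2) (bnd ψ J r σ y) none := by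
  set o := Fin.last N with ho
  set z := zz ψ J y
  rw [← sub_nonneg] at a0
  change _ ≤ ∑ t, rt ψ J H H' c t z (∑ s ∈ univ.erase o, z s - σ) * _ +
    (1 - ∑ t, rt ψ J H H' c t z (∑ s ∈ univ.erase o, z s - σ)) * _
  change 0 ≤ 1 - ∑ t, rt ψ J H H' c t z (∑ s ∈ univ.erase o, z s - σ) at a0
  have e : bnd ψ J r σ y = |((∑ s ∈ univ.erase o, z s - σ + z o : ℤ) : ℝ)| + r + 1 +
      |∑ s, ex J (ψ (y s))| := by
    rw [bnd, ← sum_erase_add _ _ (mem_univ o), add_sub_right_comm]; rfl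
  generalize ∑ s ∈ univ.erase o, z s - σ = l at a0 e ⊢
  rw [sum_rt] at a0 ⊢
  rw [← add_sum_erase _ _ (mem_univ o), sum_congr rfl
    (g := fun t => rt ψ J H H' c t z l * (-2 * bnd ψ J r σ y ^ 2)) fun t ht => by
      simp [gn, ← ho, ne_of_mem_erase ht], ← sum_mul]
  have a1 : 0 ≤ ∑ t ∈ univ.erase o, rt ψ J H H' c t z l :=
    sum_nonneg fun t _ => rt_nonneg hc3 _ _ _
  simp only [eg, gn, gf, ← ho, reduceCtorEq, if_true, if_false] at a0 ⊢
  change _ * ((_ - ∑ t ∈ univ.erase o, rt ψ J H H' c t z l) * (_ - (|((l + z o : ℤ) : ℝ)| + _ + _) ^ 2))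
    - 2 * (_ * (|((l + z o : ℤ) : ℝ)| + _ + _) ^ 2) - _ ≤ _
  generalize ∑ t ∈ univ.erase o, rt ψ J H H' c t z l = S at a0 a1 ⊢
  by_cases hl : |l| ≤ J + 2 * H
  · have a2 := win_le hJ hr hl (cz_abs J (ψ (y o)))
    change |((l + z o : ℤ) : ℝ)| + r + 1 ≤ _ at a2
    have a3 : |∑ s, ex J (ψ (y s))| ≤ ∑ s, ex J (ψ (y s)) ^ 2 :=
      (abs_sum_le_sum_abs _ _).trans (sum_le_sum fun s _ => abs_ex_le (by omega) _)
    have a4 := sq_sum_le_card_mul_sum_sq (s := univ) (f := fun s => ex J (ψ (y s)))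
    rw [card_univ, Fintype.card_fin, ← sq_abs] at a4
    push_cast at a4
    have a5 : bnd ψ J r σ y ^ 2 ≤ (|((l + z o : ℤ) : ℝ)| + r + 1) ^ 2 + xe ψ J y := by
      have := mul_le_mul a2 a3 (abs_nonneg _) (by positivity)
      simp only [e, xe]
      linarith
    have a6 : 0 ≤ xe ψ J y := by unfold xe; positivity
    have a7 := mul_le_mul_of_nonneg_left a5 a0
    have a8 := mul_le_mul_of_nonneg_left a5 (show 0 ≤ bb ψ J H c l by linarith)
    have a9 := mul_le_mul_of_nonneg_left a7 (Nat.cast_nonneg (α := ℝ) r)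
    have := mul_nonneg (mul_nonneg a1 a6) (Nat.cast_nonneg (α := ℝ) r)
    linarith
  · rw [bb_zero hl] at a0 ⊢
    obtain rfl : S = 0 := by linarith
    simp

open Classical in
theorem le_sum_eg (hJ : H ≤ J) (hr : r + 1 ≤ H) (hc : 0 ≤ c) (hc2 : c * (7 * J) ≤ 1 / 4)
    (h2 : 𝔼 a, ψ a ^ 2 = H ^ 2) (y : Fin (N + 1) → α) :
    r * ((𝔼 a, (64 / 128 * gf H r (cz J (ψ a) + zz ψ J y (Fin.last N)) +
        1 / 128 * gf H r (cz J (ψ a) + 2 * H + zz ψ J y (Fin.last N)))) - c * (7 * J * (5 * J) ^ 2) -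
      (∑ t ∈ univ.erase (Fin.last N), (nb H H' (zz ψ J y (Fin.last N))
        (fun l => gf H r (l + zz ψ J y (Fin.last N))) (zz ψ J y t) +
        (if El ψ J c t (zz ψ J y) then 0 else 1) * (5 * J) ^ 2)) / N) -
      2 * (195 / 128 * (13 * H ^ 2 + zz ψ J y (Fin.last N) ^ 2) + c * (7 * J * (5 * J) ^ 2)) -
      (r + 2) * xe ψ J y ≤ ∑ σ ∈ Icc (-(N * J + (J + 2 * H)) : ℤ) (N * J + (J + 2 * H)),
        eg ψ J H H' r c y (∑ s ∈ univ.erase (Fin.last N), zz ψ J y s - σ) := by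
  rw [shift_sum (P := J + 2 * H) ?_ (eg ψ J H H' r c y) fun l hl => ?_]
  · have a1 := sum_rest (ψ := ψ) (H' := H') hJ (by omega) hc (z := zz ψ J y) (fun s => cz_abs _ _)
      (F := fun l => gf H r (l + zz ψ J y (Fin.last N))) fun l hl => gf_le hJ hr hl (cz_abs _ _)
    have a2 := sum_edge hJ hr hc h2 (b := zz ψ J y (Fin.last N)) (cz_abs _ _)
    have a3 := sum_bb (ψ := ψ) (J := J) (H := H) (c := c) fun _ => 1
    have a4 := mul_le_mul_of_nonneg_left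
      (sum_win hJ (by omega) zero_le_one (F := fun _ => 1) fun _ _ => le_rfl) hc
    rw [Fintype.expect_const] at a3
    have a5 := mul_le_mul_of_nonneg_left (show ∑ l ∈ Icc (-(J + 2 * H) : ℤ) (J + 2 * H),
      bb ψ J H c l * 1 ≤ 1 by linarith) (show 0 ≤ (r + 2) * xe ψ J y by unfold xe; positivity)
    have a6 := mul_le_mul_of_nonneg_left a1 (Nat.cast_nonneg (α := ℝ) r)
    simp only [eg, sum_sub_distrib, ← mul_sum]
    linarith
  · have := (abs_sum_le_sum_abs _ _).trans (sum_le_card_nsmul (univ.erase (Fin.last N))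
      (fun s => |zz ψ J y s|) J fun s _ => cz_abs _ _)
    simp only [card_erase_of_mem (mem_univ (Fin.last N)), card_univ, Fintype.card_fin,
      Nat.add_sub_cancel, nsmul_eq_mul] at this
    omega
  · have : ∑ t ∈ univ.erase (Fin.last N), rt ψ J H H' c t (zz ψ J y) l = 0 :=
      sum_eq_zero fun t ht => by
        rw [rt, if_neg (ne_of_mem_erase ht)]
        split_ifs
        · rw [div_eq_zero_iff]
          refine Or.inl (not_not.1 fun h => hl ?_)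
          have := nn_supp h
          have : -J ≤ zz ψ J y t ∧ zz ψ J y t ≤ J := abs_le.1 (cz_abs J (ψ (y t)))
          rw [abs_le]; omega
        · rfl
    simp only [eg, bb_zero hl, this]
    simp

theorem center_gain (hH : H = 200 * H') (hr : r + 2 ≤ H') (hJ : H ≤ J)
    (hτ3 : (65 * (5 * J) ^ 2 + 16 * H ^ 2 + 16) * τ ≤ 2 / 5 * H ^ 2)
    (h0 : 𝔼 a, ψ a = 0) (h2 : 𝔼 a, ψ a ^ 2 = H ^ 2) (hτ : 𝔼 a, ex J (ψ a) ^ 2 ≤ τ)
    (hp : p ≤ 𝔼 a, if 0 ≤ ψ a ∧ ψ a < H' then 1 else 0) :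
    p * H ^ 2 / 64 ≤ (𝔼 b, 𝔼 a, (64 / 128 * gf H r (cz J (ψ a) + cz J (ψ b)) +
      1 / 128 * gf H r (cz J (ψ a) + 2 * H + cz J (ψ b)))) -
      𝔼 b, 𝔼 a, nb H H' (cz J (ψ b)) (fun l => gf H r (l + cz J (ψ b))) (cz J (ψ a)) := by
  rw [← expect_sub_distrib]
  refine le_trans ?_ (expect_le_expect (f := fun b => (H ^ 2 / 64 : ℝ) *
    if 0 ≤ ψ b ∧ ψ b < H' then 1 else 0) fun b _ => ?_)
  · rw [← mul_expect]
    nlinarith
  · rw [← expect_sub_distrib]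
    by_cases h : 0 ≤ cz J (ψ b) ∧ cz J (ψ b) < H'
    · have := center h0 h2 hτ hH hr hJ hτ3 h.1 h.2
      simp only [nb, if_pos h, expect_sub_distrib, expect_add_distrib, ← mul_expect] at this ⊢
      split_ifs <;> nlinarith
    · simp only [nb, if_neg h, sub_self, expect_const_zero]
      rw [if_neg, mul_zero]
      refine fun h' => h ?_
      have a1 := Int.floor_nonneg.2 h'.1
      have a2 : ⌊ψ b⌋ < H' := Int.floor_lt.2 (by exact_mod_cast h'.2)
      rw [cz, if_pos (abs_le.2 (by omega))]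
      exact ⟨a1, a2⟩

theorem arith {r p G A B S e E X T : ℝ} (hr : 0 ≤ r) (hG : 0 ≤ G) (hrp : 7168 ≤ r * p) (hp : p ≤ 1)
    (h1 : p * G / 64 ≤ A - B) (h2 : e ≤ p * G / 256) (h3 : S ≤ B + p * G / 256)
    (h4 : E ≤ 195 / 128 * (17 * G) + p * G / 256) (h5 : X ≤ T) (h6 : (r + 2) * T ≤ G) :
    G ≤ r * (A - e - S) - 2 * E - (r + 2) * X := by
  have c1 := mul_le_mul_of_nonneg_left h5 (show (0 : ℝ) ≤ r + 2 by positivity)
  have c2 := mul_le_mul_of_nonneg_left (show p * G / 128 ≤ A - e - S by linarith) hr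
  have c3 := mul_le_mul_of_nonneg_right hrp hG
  have c4 := mul_le_mul_of_nonneg_right hp hG
  linarith

theorem gadget (hH : H = 200 * H') (hr : r + 2 ≤ H') (hJ : H ≤ J) (hrp : 7168 ≤ r * p)
    (hp1 : p ≤ 1) (hc : 0 < c) (hc1 : c * (7 * J * (5 * J) ^ 2) ≤ p * H ^ 2 / 256)
    (hN1 : (2 / c) ^ (2 * J + 1) ≤ N)
    (hN2 : (2 * J + 1) * (4 / (N * (c / 2) ^ 2)) * (5 * J) ^ 2 ≤ p * H ^ 2 / 256)
    (hN3 : 2 ≤ N * (c / 2)) (hτ1 : τ ≤ c / 2)
    (hτ2 : (r + 2) * ((10 * J + N + 1) * ((N + 1) * τ)) ≤ H ^ 2)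
    (hτ3 : (65 * (5 * J) ^ 2 + 16 * H ^ 2 + 16) * τ ≤ 2 / 5 * H ^ 2)
    (h0 : 𝔼 a, ψ a = 0) (h2 : 𝔼 a, ψ a ^ 2 = H ^ 2) (hτ : 𝔼 a, ex J (ψ a) ^ 2 ≤ τ)
    (hW : ∀ l : ℤ, |l| ≤ J + 2 * H → 8 * (𝔼 a, if ⌊ψ a⌋ = l - H then 1 else 0 : ℝ) ≤
      64 * (𝔼 a, if ⌊ψ a⌋ = l then 1 else 0) + (𝔼 a, if ⌊ψ a⌋ = l - 2 * H then 1 else 0) + c / 2)
    (hp : p ≤ 𝔼 a, if 0 ≤ ψ a ∧ ψ a < H' then 1 else 0) :
    ∃ (s : ℝ) (E : Fin (N + 1) → (Fin (N + 1) → α) → ℝ), Packing ψ E ∧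
      (H : ℝ) ^ 2 ≤ (2 * (N * J + (J + 2 * H)) + 1) * ((N + r + 1) *
        𝔼 y, (1 - ∑ t, E t y) * (H ^ 2 - (∑ j, ψ (y j) - s) ^ 2)) := by
  classical
  have hH1 : (1 : ℝ) ≤ H := by exact_mod_cast (show 1 ≤ H by omega)
  have hJ1 : (H : ℝ) ≤ J := by exact_mod_cast hJ
  have hN : (0 : ℝ) < N := lt_of_lt_of_le (by positivity) hN1
  have hc2 : c * (7 * J) ≤ 1 / 4 := by
    have : p * H ^ 2 ≤ J ^ 2 := by nlinarith
    refine le_of_mul_le_mul_right (a := (J : ℝ) ^ 2) (by nlinarith) (pow_pos (by linarith) 2)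
  have hc3 : c ≤ 1 / 4 := by nlinarith
  have hround := rho_round (ψ := ψ) (H := H) (H' := H') hc hc3 hN1 fun l hl => by
    have a1 := abs_le.1 (wt_near (by omega) hτ (l - H))
    have a2 := abs_le.1 (wt_near (by omega) hτ l)
    have a3 := abs_le.1 (wt_near (by omega) hτ (l - 2 * H))
    linarith [hW l hl]
  have b3 := center_gain hH hr hJ hτ3 h0 h2 hτ hp
  rw [← expect_coord (Fin.last N), ← expect_coord (Fin.last N) fun b => 𝔼 a, nb _ _ _ _ _] at b3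
  have b4 : 𝔼 y, (zz ψ J y (Fin.last N) : ℝ) ^ 2 ≤ 4 * H ^ 2 :=
    (expect_coord _ fun a => (cz J (ψ a) : ℝ) ^ 2).trans_le (cz_sq h2 (by omega))
  have b5 : 𝔼 y : Fin (N + 1) → α, xe ψ J y ≤ (10 * J + N + 1) * ((N + 1) * τ) := by
    simp only [xe, ← mul_expect, expect_sum_comm, fun s : Fin (N + 1) =>
      expect_coord s fun a => ex J (ψ a) ^ 2, sum_const, card_univ, Fintype.card_fin, nsmul_eq_mul]
    push_cast
    gcongr
  have b6 : (∑ t ∈ univ.erase (Fin.last N), 𝔼 y, (nb H H' (zz ψ J y (Fin.last N))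
      (fun l => gf H r (l + zz ψ J y (Fin.last N))) (zz ψ J y t) +
      (if El ψ J c t (zz ψ J y) then 0 else 1) * (5 * J) ^ 2)) / N ≤
      (𝔼 y, 𝔼 a, nb H H' (zz ψ J y (Fin.last N)) (fun l => gf H r (l + zz ψ J y (Fin.last N)))
        (cz J (ψ a))) + p * H ^ 2 / 256 := by
    rw [div_le_iff₀ hN]
    refine (sum_le_card_nsmul _ _ _ fun t ht => ?_).trans (by
      rw [card_erase_of_mem (mem_univ _), card_univ, Fintype.card_fin, Nat.add_sub_cancel,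
        nsmul_eq_mul, mul_comm])
    rw [expect_add_distrib, ← expect_mul, expect_update t]
    refine add_le_add (le_of_eq ?_) (le_trans (mul_le_mul_of_nonneg_right ?_ (sq_nonneg _)) hN2)
    · simp only [zz, update_self, update_of_ne (ne_of_mem_erase ht).symm]
    · have := chebyshev (ψ := ψ) (J := J) ((univ.erase (Fin.last N)).erase t) (N := N) (ζ := c / 2)
        (by exact_mod_cast card_erase_le.trans (by simp)) hN3 hN
      refine le_of_eq_of_le (expect_congr rfl fun y _ => ?_) this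
      congr
  have tot := expect_le_expect (s := univ) fun (y : Fin (N + 1) → α) _ =>
    le_sum_eg (H' := H') hJ (show r + 1 ≤ H by omega) hc.le hc2 h2 y
  have b7 : 𝔼 y : Fin (N + 1) → α, (195 / 128 * (13 * H ^ 2 + (zz ψ J y (Fin.last N) : ℝ) ^ 2) +
      c * (7 * J * (5 * J) ^ 2)) ≤ 195 / 128 * (17 * H ^ 2) + p * H ^ 2 / 256 := by
    simp only [expect_add_distrib, ← mul_expect, Fintype.expect_const]
    linarith
  rw [expect_sub_distrib, expect_sub_distrib, ← mul_expect, ← mul_expect, ← mul_expect,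
    expect_sub_distrib, expect_sub_distrib, ← expect_div, expect_sum_comm, expect_sum_comm,
    Fintype.expect_const] at tot
  obtain ⟨σ, -, hσ⟩ := exists_max_image (Icc (-(N * J + (J + 2 * H)) : ℤ) (N * J + (J + 2 * H)))
    (fun σ => 𝔼 y, eg ψ J H H' r c y (∑ s ∈ univ.erase (Fin.last N), zz ψ J y s - σ))
    ⟨0, mem_Icc.2 ⟨neg_nonpos.2 (by positivity), by positivity⟩⟩
  obtain ⟨D, hD, hD'⟩ := (hround σ).2 (fun y s => cq J (ψ (y s)))
    fun y => gn r (H ^ 2) (bnd ψ J r σ y)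
  obtain ⟨s, E, hE, hE'⟩ := fine (r := r) ψ (sq_nonneg (H : ℝ)) σ hD
  refine ⟨s, E, hE, le_trans ?_ (mul_le_mul_of_nonneg_left (((expect_le_expect fun y _ =>
    eg_le hJ (by omega) hc3 σ y ((hround σ).1 _)).trans hD').trans hE') (by positivity))⟩
  have := sum_le_card_nsmul _ _ _ hσ
  rw [Int.card_Icc, show ((N : ℤ) * J + (J + 2 * H) + 1 - -(N * J + (J + 2 * H))).toNat =
    2 * (N * J + (J + 2 * H)) + 1 by
      rw [← Nat.cast_mul]; omega, nsmul_eq_mul] at this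
  push_cast at this
  refine le_trans ?_ (tot.trans this)
  exact arith (Nat.cast_nonneg r) (sq_nonneg _) hrp hp1 b3 hc1 b6 b7 b5 hτ2

end Vale.Agent.P047
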