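import Vale.Agent.P047.Amplify

/-! Iteration, passage to Boolean functions, and composition. -/

namespace Vale.Agent.P047

open Finset Filter Topology
open scoped BigOperators

theorem unbounded (K : ℝ) : ∃ (ι : Type) (_ : Fintype ι) (_ : DecidableEq ι) (c : ℕ)
    (φ : (ι → Bool) → ℝ), 1 ≤ c ∧ Good c φ ∧ 0 < 𝔼 x, φ x ^ 2 ∧ K * c ≤ 𝔼 x, φ x ^ 2 := by
  obtain ⟨N, η, hN, hη, h⟩ := amplify
  have key : ∀ k : ℕ, ∃ (ι : Type) (_ : Fintype ι) (_ : DecidableEq ι) (c : ℕ)
      (φ : (ι → Bool) → ℝ), 1 ≤ c ∧ Good c φ ∧ (1 + η) ^ k * c ≤ 𝔼 x, φ x ^ 2 := fun k => by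
    induction k with
    | zero =>
      refine ⟨Unit, inferInstance, inferInstance, 1, tot, le_rfl, ⟨fun g => Submodule.subset_span
        ⟨univ, by simp, fun x y h => by rw [funext fun i => h i (mem_univ i)]⟩, fun _ => rfl⟩, ?_⟩
      refine le_expect univ_nonempty fun x _ => ?_
      cases h : x () <;> simp [tot, pm, h]
    | succ k ih =>
      obtain ⟨ι, _, _, c, φ, hc, hφ, hV⟩ := ih
      obtain ⟨M, hM, Ψ, h1, h2⟩ := h hφ (lt_of_lt_of_le (by positivity) hV)
      refine ⟨_, inferInstance, inferInstance, _, Ψ, Nat.mul_pos hN (Nat.mul_pos hM hc), h1,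
        le_trans ?_ h2⟩
      push_cast
      calc (1 + η) ^ (k + 1) * (N * (M * c)) = N * (M * ((1 + η) ^ k * c)) * (1 + η) := by ring
        _ ≤ _ := by gcongr
  obtain ⟨k, hk⟩ := ((tendsto_pow_atTop_atTop_of_one_lt
    (show 1 < 1 + η by linarith)).eventually_ge_atTop K).exists
  obtain ⟨ι, _, _, c, φ, hc, hφ, hV⟩ := key k
  exact ⟨ι, inferInstance, inferInstance, c, φ, hc, hφ, lt_of_lt_of_le (by positivity) hV,
    le_trans (by gcongr) hV⟩

/-- A balanced Boolean function of degree at most `d` with linear sum `L`. -/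
structure Bal {ι : Type} [Fintype ι] [DecidableEq ι] (d : ℕ) (L : ℝ) (f : (ι → Bool) → ℝ) :
    Prop where
  bool : ∀ x, f x = 1 ∨ f x = -1
  jun : f ∈ Jun ι d
  mean : 𝔼 x, f x = 0
  lin : 𝔼 x, tot x * f x = L

theorem Jun.neg {ι : Type} {c : ℕ} {F : (ι → Bool) → ℝ} (hF : F ∈ Jun ι c) :
    (fun x : ι → Bool => F fun i => !x i) ∈ Jun ι c := by
  induction hF using Submodule.span_induction with
  | zero => exact zero_mem _
  | add _ _ _ _ h1 h2 => exact add_mem h1 h2
  | smul a _ _ h => exact Submodule.smul_mem _ a h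
  | mem F hF =>
    obtain ⟨A, hA, hF⟩ := hF
    exact Submodule.subset_span ⟨A, hA, fun x y h => hF _ _ fun i hi => by rw [h i hi]⟩

theorem odd_part {ι : Type} [Fintype ι] [DecidableEq ι] {d : ℕ} {f : (ι → Bool) → ℝ}
    (hb : ∀ x, f x = 1 ∨ f x = -1) (hj : f ∈ Jun ι d) : ∃ (L : ℝ) (F : (Option ι → Bool) → ℝ),
      Bal (d + 1) L F ∧ (𝔼 x, tot x * f x) - 1 ≤ L := by
  let F : (Option ι → Bool) → ℝ := fun x =>
    if x none then -f fun i => !x (some i) else f fun i => x (some i)
  have hE : ∀ G : Bool → (ι → Bool) → ℝ, 𝔼 x : Option ι → Bool, G (x none) (fun i => x (some i)) =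
      ((𝔼 x : ι → Bool, G true fun i => !x i) + 𝔼 x, G false x) / 2 := fun G => by
    rw [Fintype.expect_equiv (Equiv.piOptionEquivProd (β := fun _ => Bool))
      (fun x => G (x none) fun i => x (some i)) (fun p => G p.1 p.2) fun _ => rfl, ← univ_product_univ, expect_product',
      Fintype.expect_eq_sum_div_card, Fintype.sum_bool, Fintype.expect_equiv
      (Equiv.piCongrRight fun _ : ι => Bool.involutive_not.toPerm) (fun x => G true fun i => !x i)
      (G true) fun _ => rfl]
    simp
  have hpm : ∀ b, pm (!b) = -pm b := fun b => by cases b <;> simp [pm]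
  refine ⟨_, F, ⟨fun x => ?_, ?_, ?_, rfl⟩, ?_⟩
  · simp only [F]
    split_ifs
    · rcases hb fun i => !x (some i) with h | h <;> simp [h]
    · exact hb _
  · have h1 : ∀ b, (fun x : Option ι → Bool => if x none = b then (1 : ℝ) else 0) ∈
        Jun (Option ι) 1 := fun b => Submodule.subset_span ⟨{none}, by simp, fun x y h => by
      simp only [h none (by simp)]⟩
    have := sub_mem (Jun.mul (Jun.comp some hj) (h1 false))
      (Jun.mul (Jun.comp some (Jun.neg hj)) (h1 true))
    convert this using 1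
    funext x
    cases h : x none <;> simp [F, h]
  · rw [hE fun b x => if b then -f fun i => !x i else f x]
    simp
  · have e : ∀ x : Option ι → Bool, tot x = pm (x none) + tot fun i => x (some i) := fun x => by
      simp [tot, Fintype.sum_option]
    simp only [e]
    rw [hE fun b x => (pm b + tot x) * if b then -f fun i => !x i else f x]
    have h1 : -1 ≤ 𝔼 x, f x := le_expect univ_nonempty fun x _ => by
      rcases hb x with h | h <;> simp [h]
    have h2 : ∀ x : ι → Bool, tot (fun i => !x i) = -tot x := fun x => by simp [tot, hpm]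
    simp only [h2, pm, Bool.not_not, if_true, Bool.false_eq_true, if_false, ← neg_add, neg_mul_neg,
      add_mul, one_mul, expect_add_distrib]
    linarith

theorem exists_bal : ∃ (ι : Type) (_ : Fintype ι) (_ : DecidableEq ι) (d : ℕ) (L : ℝ)
    (f : (ι → Bool) → ℝ), Bal d L f ∧ 2 ≤ d ∧ 0 < L ∧ (d : ℝ) < L ^ 2 := by
  have hg := gm_pos (show (1 : ℝ) < 2 by norm_num)
  set p := gm 1 2 / 2 with hp
  have hp0 : 0 < p := by positivity
  obtain ⟨ι, _, _, c, φ, hc, hφ, hV, hK⟩ := unbounded (9 / p ^ 2)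
  set V := 𝔼 x, φ x ^ 2 with hVd
  have h0 : 𝔼 x, φ x / √V = 0 := by rw [← expect_div, hφ.mean, zero_div]
  have h1 : 𝔼 x, (φ x / √V) ^ 2 = 1 := by
    simp only [div_pow, ← expect_div, Real.sq_sqrt hV.le]; exact div_self hV.ne'
  obtain ⟨M, m1, m2⟩ := (((clt_Ico h0 h1 1 2).eventually
    (lt_mem_nhds (show p < _ by linarith))).and (eventually_ge_atTop 1)).exists
  have hM : (1 : ℝ) ≤ M := by exact_mod_cast m2
  have hs := hφ.sum (κ := Fin M)
  rw [Fintype.card_fin] at hs
  obtain ⟨L, F, hF, hL⟩ := odd_part (fun x => by split_ifs <;> simp)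
    (hs.jun fun r => if 0 ≤ r then 1 else -1)
  rw [hs.cond fun r => if 0 ≤ r then 1 else -1,
    expect_curry fun y => (∑ j, φ (y j)) * if 0 ≤ ∑ j, φ (y j) then 1 else -1] at hL
  have h2 : √M * √V * p ≤ 𝔼 y : Fin M → ι → Bool,
      (∑ j, φ (y j)) * if 0 ≤ ∑ j, φ (y j) then 1 else -1 := by
    refine (mul_le_mul_of_nonneg_left m1.le (by positivity)).trans ?_
    rw [mul_expect]
    refine expect_le_expect fun y _ => ?_
    have : 0 < √M * √V := by positivity
    split_ifs with h h' h'
    · have := h.1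
      simp only [nsum, ← sum_div] at this
      rw [← mul_div_assoc, inv_mul_eq_div, div_div, le_div_iff₀ (by positivity)] at this
      linarith
    · have := h.1
      simp only [nsum, ← sum_div] at this
      rw [← mul_div_assoc, inv_mul_eq_div, div_div, le_div_iff₀ (by positivity)] at this
      linarith
    · linarith
    · linarith
  have h3 : 9 * (M * c) ≤ (√M * √V * p) ^ 2 := by
    rw [mul_pow, mul_pow, Real.sq_sqrt (by positivity), Real.sq_sqrt hV.le, mul_assoc,
      mul_left_comm]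
    rw [div_mul_eq_mul_div, div_le_iff₀ (by positivity)] at hK
    gcongr
  have h4 : (1 : ℝ) ≤ M * c := by exact_mod_cast Nat.mul_pos m2 hc
  have h5 : 3 ≤ √M * √V * p := (pow_le_pow_iff_left₀ (by norm_num) (by positivity) two_ne_zero).1
    (by linarith)
  refine ⟨_, inferInstance, inferInstance, _, L, F, hF, Nat.succ_le_succ (Nat.mul_pos m2 hc),
    by linarith, ?_⟩
  push_cast
  nlinarith

theorem Bal.comp {κ ι : Type} [Fintype κ] [DecidableEq κ] [Fintype ι] [DecidableEq ι] {d d' : ℕ}
    {L L' : ℝ} {f : (κ → Bool) → ℝ} {g : (ι → Bool) → ℝ} (hf : Bal d L f) (hg : Bal d' L' g) :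
    Bal (d * d') (L * L') fun x : κ × ι → Bool =>
      f fun j => decide (g (fun i => x (j, i)) = -1) := by
  have hpm : ∀ x, pm (decide (g x = -1)) = g x := fun x => by
    rcases hg.bool x with h | h <;> norm_num [pm, h]
  have hlin : ∀ (h : ℝ → ℝ) x, h (g x) = (h 1 + h (-1)) / 2 + (h 1 - h (-1)) / 2 * g x :=
    fun h x => by rcases hg.bool x with e | e <;> rw [e] <;> ring
  have hj : ∀ h : ℝ → ℝ, (fun x => h (g x)) ∈ Jun ι d' := fun h => by
    simp only [hlin h]
    exact add_mem (Jun.const _ _) (Submodule.smul_mem _ ((h 1 - h (-1)) / 2) hg.jun)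
  have hpush : ∀ K : (κ → Bool) → ℝ,
      𝔼 y : κ → ι → Bool, K (fun j => decide (g (y j) = -1)) = 𝔼 b, K b := fun K => by
    have h1 : ∀ b : Bool, 𝔼 x, (if b = decide (g x = -1) then (1 : ℝ) else 0) = 1 / 2 := fun b => by
      rw [expect_congr rfl (g := fun x => 1 / 2 + pm b / 2 * g x) fun x _ => by
        rcases hg.bool x with e | e <;> cases b <;> norm_num [e, pm]]
      simp [expect_add_distrib, ← mul_expect, hg.mean]
    have h2 : ∀ b : κ → Bool, 𝔼 y : κ → ι → Bool,
        (if b = fun j => decide (g (y j) = -1) then (1 : ℝ) else 0) =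
        (Fintype.card (κ → Bool) : ℝ)⁻¹ := fun b => by
      have := sum_prod_pi fun j (x : ι → Bool) => if b j = decide (g x = -1) then (1 : ℝ) else 0
      simp only [← Fintype.card_mul_expect, h1, prod_boole, mem_univ, true_imp_iff,
        prod_const, card_univ, mul_pow] at this
      rw [Fintype.card_fun, Nat.cast_pow, mul_right_inj' (by positivity)] at this
      simp only [funext_iff (f := b)]
      rw [this]; simp
    rw [Fintype.expect_eq_sum_div_card K, sum_div]
    rw [sum_congr rfl fun b _ => by rw [div_eq_mul_inv, ← h2 b, mul_expect], ← expect_sum_comm]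
    simp
  refine ⟨fun x => hf.bool _, ?_, ?_, ?_⟩
  · have := hf.jun
    clear hf
    induction this using Submodule.span_induction with
    | zero => exact zero_mem _
    | add _ _ _ _ h1 h2 => exact add_mem h1 h2
    | smul a _ _ h => exact Submodule.smul_mem _ a h
    | mem F hF =>
      obtain ⟨A, hA, hF⟩ := hF
      exact Jun.mono (Nat.mul_le_mul_right _ hA) (Dep.jun hj A
        (fun y => F fun j => decide (g (y j) = -1)) fun y y' h => hF _ _ fun j hj => by rw [h j hj])
  · rw [expect_curry fun y => f fun j => decide (g (y j) = -1), hpush, hf.mean]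
  · rw [expect_tot_curry (φ := g) (S := fun x => L' * g x)
      (H := fun y => f fun j => decide (g (y j) = -1)) (fun h => ?_) fun y y' h => by
        simp only [fun j => h j (mem_univ j)], ← hf.lin, ← hpush, expect_mul]
    · exact expect_congr rfl fun y _ => by simp only [tot, hpm, ← mul_sum]; ring
    · have h2 : ∀ x, g x * g x = 1 := fun x => by rcases hg.bool x with e | e <;> simp [e]
      simp only [hlin h, mul_add, mul_left_comm _ ((h 1 - h (-1)) / 2), mul_assoc, h2,
        expect_add_distrib, ← mul_expect, ← expect_mul, expect_tot, hg.mean, hg.lin]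
      simp

theorem bal_pow {ι : Type} [Fintype ι] [DecidableEq ι] {d : ℕ} {L : ℝ} {f : (ι → Bool) → ℝ}
    (hf : Bal d L f) (k : ℕ) : ∃ (ι : Type) (_ : Fintype ι) (_ : DecidableEq ι)
      (g : (ι → Bool) → ℝ), Bal (d ^ k) (L ^ k) g := by
  induction k with
  | zero =>
    refine ⟨Unit, inferInstance, inferInstance, tot, fun x => ?_, Submodule.subset_span
      ⟨univ, by simp, fun x y h => by rw [funext fun i => h i (mem_univ i)]⟩, expect_tot, ?_⟩
    · cases h : x () <;> simp [tot, pm, h]
    · rw [expect_congr rfl (g := fun _ => 1) fun x _ => by cases h : x () <;> simp [tot, pm, h]]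
      simp
  | succ k ih =>
    obtain ⟨ι', _, _, g, hg⟩ := ih
    exact ⟨_, inferInstance, inferInstance, _, pow_succ L k ▸ pow_succ d k ▸ hg.comp hf⟩

theorem Bal.fin {ι : Type} [Fintype ι] [DecidableEq ι] {d : ℕ} {L : ℝ} {f : (ι → Bool) → ℝ}
    (hf : Bal d L f) : ∃ n, 1 ≤ n ∧ ∃ g : (Fin n → Bool) → ℝ, (∀ x, g x = 1 ∨ g x = -1) ∧
      deg g ≤ d ∧ ∑ i, fhat g {i} = L := by
  have e := Fintype.equivFin ι
  refine ⟨Fintype.card ι, Fintype.card_pos_iff.2 ?_, fun x => f fun i => x (e i), fun x => hf.bool _,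
    Jun.deg_le (Jun.comp e hf.jun), ?_⟩
  · by_contra h
    haveI := not_nonempty_iff.1 h
    have := hf.mean
    rw [expect_congr rfl (g := fun _ => f default) fun x _ => by rw [Subsingleton.elim x]] at this
    rw [Fintype.expect_const] at this
    rcases hf.bool default with h | h <;> rw [h] at this <;> norm_num at this
  · rw [← hf.lin, ← Fintype.expect_equiv (Equiv.arrowCongr e.symm (Equiv.refl Bool))
      (fun x => tot x * f fun i => x (e i)) _ fun x => by
        simp only [tot, ← e.sum_comp]; rfl, Fintype.expect_eq_sum_div_card]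
    simp only [fhat, prod_singleton, ← sum_div, tot, sum_mul]
    rw [sum_comm]
    simp [mul_comm]

theorem growth : ∃ ε c : ℝ, 0 < ε ∧ 0 < c ∧ ∀ d : ℕ, 1 ≤ d → ∃ n, 1 ≤ n ∧
    ∃ f : (Fin n → Bool) → ℝ, (∀ x, f x = 1 ∨ f x = -1) ∧ deg f ≤ d ∧
      c * (d : ℝ) ^ (1 / 2 + ε) ≤ ∑ i, fhat f {i} := by
  obtain ⟨ι, _, _, D, L, f, hf, hD, hL, hDL⟩ := exists_bal
  have hD1 : (1 : ℝ) < D := by exact_mod_cast hD
  have hlog := Real.log_pos hD1
  have h1 : Real.log D < 2 * Real.log L := by
    have := Real.log_lt_log (by linarith) hDL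
    rwa [Real.log_pow, Nat.cast_ofNat] at this
  refine ⟨Real.log L / Real.log D - 1 / 2, L⁻¹, by rw [sub_pos, lt_div_iff₀ hlog]; linarith,
    by positivity, fun d hd => ?_⟩
  obtain ⟨ι', _, _, g, hg⟩ := bal_pow hf (Nat.log D d)
  obtain ⟨n, hn, g, g1, g2, g3⟩ := hg.fin
  refine ⟨n, hn, g, g1, g2.trans (Nat.pow_log_le_self _ (by omega)), ?_⟩
  rw [g3, add_sub_cancel, inv_mul_le_iff₀ hL, ← pow_succ']
  have h2 : (d : ℝ) ≤ D ^ (Nat.log D d + 1) := by
    exact_mod_cast (Nat.lt_pow_succ_log_self hD d).le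
  refine (Real.rpow_le_rpow (by positivity) h2 (div_nonneg (by linarith) hlog.le)).trans
    (le_of_eq ?_)
  rw [← Real.rpow_natCast, ← Real.rpow_mul (by positivity), mul_comm, Real.rpow_mul (by positivity),
    Real.rpow_natCast, ← Real.logb, Real.rpow_logb (by linarith) hD1.ne' hL]

end Vale.Agent.P047
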