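import Vale.Agent.P047.Fine

/-! One-dimensional estimates for the coarse symbol. -/

namespace Vale.Agent.P047

open Finset Function
open scoped BigOperators

theorem one_le_ex {J : ℕ} (hJ : 1 ≤ J) {x : ℝ} (h : ¬ |⌊x⌋| ≤ J) : 1 ≤ ex J x ^ 2 := by
  rw [ex, if_neg h, ← sq_abs, one_le_sq_iff₀ (abs_nonneg x), le_abs']
  rcases lt_abs.1 (not_le.1 h) with h | h
  · exact Or.inr (by exact_mod_cast (Int.le_floor (z := 1)).1 (by omega))
  · exact Or.inl (by exact_mod_cast ((Int.floor_lt (z := -1)).1 (by omega)).le)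

theorem abs_ex_le {J : ℕ} (hJ : 1 ≤ J) (x : ℝ) : |ex J x| ≤ ex J x ^ 2 := by
  by_cases h : |⌊x⌋| ≤ J
  · simp [ex, h]
  · have := one_le_ex hJ h
    rw [← sq_abs] at this ⊢
    nlinarith [abs_nonneg (ex J x)]

theorem sq_up {u δ ρ H : ℝ} (h : |δ| + ρ ≤ H / 100) (hρ : 0 ≤ ρ) :
    (|u + δ| + ρ) ^ 2 ≤ 101 / 100 * u ^ 2 + 101 / 10000 * H ^ 2 := by
  have h1 : (|u + δ| + ρ) ^ 2 ≤ (|u| + H / 100) ^ 2 :=
    pow_le_pow_left₀ (by positivity) (by linarith [abs_add_le u δ]) 2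
  nlinarith [sq_abs u, sq_nonneg (|u| - H)]

theorem sq_lo {u δ ρ H : ℝ} (h : |δ| + ρ ≤ H / 100) (hρ : 0 ≤ ρ) :
    99 / 100 * u ^ 2 - H ^ 2 / 100 ≤ (|u + δ| + ρ) ^ 2 := by
  have h1 : |u + δ| ^ 2 ≤ (|u + δ| + ρ) ^ 2 := pow_le_pow_left₀ (abs_nonneg _) (by linarith) 2
  have h2 : |δ| ^ 2 ≤ (H / 100) ^ 2 := pow_le_pow_left₀ (abs_nonneg _) (by linarith) 2
  rw [sq_abs] at h1 h2
  nlinarith [sq_nonneg (u + 100 * δ), sq_nonneg δ]

/-- The gain at a coarse location. -/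
noncomputable def gf (H r : ℕ) (l : ℤ) : ℝ := (H : ℝ) ^ 2 - (|(l : ℝ)| + r + 1) ^ 2

variable {α : Type} [Fintype α] [Nonempty α] {ψ : α → ℝ} {J H H' r : ℕ} {τ : ℝ}

theorem center (h0 : 𝔼 a, ψ a = 0) (h2 : 𝔼 a, ψ a ^ 2 = H ^ 2) (hτ : 𝔼 a, ex J (ψ a) ^ 2 ≤ τ)
    (hH : H = 200 * H') (hr : r + 2 ≤ H') (hJ : H ≤ J)
    (hc : (65 * (5 * J) ^ 2 + 16 * H ^ 2 + 16) * τ ≤ 2 / 5 * H ^ 2) {b : ℤ} (hb0 : 0 ≤ b)
    (hb : b < H') : 2 * (H : ℝ) ^ 2 ≤ 𝔼 a, (64 * gf H r (cz J (ψ a) + b) +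
      gf H r (cz J (ψ a) + 2 * H + b) - 8 * gf H r (cz J (ψ a) + H + b)) := by
  have hH1 : (H : ℝ) = 200 * H' := by exact_mod_cast hH
  have hr1 : (r : ℝ) + 2 ≤ H' := by exact_mod_cast hr
  have hJ1 : (H : ℝ) ≤ J := by exact_mod_cast hJ
  have hb1 : (0 : ℝ) ≤ b := by exact_mod_cast hb0
  have hb2 : (b : ℝ) < H' := by exact_mod_cast hb
  have hr0 : (0 : ℝ) ≤ r := by positivity
  have hpt : ∀ x : ℝ, (-5773 / 100) * x ^ 2 + (59 / 5 * H) * x + 120287 / 2000 * H ^ 2 -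
      (65 * (5 * J) ^ 2 + 16 * H ^ 2 + 16) * ex J x ^ 2 ≤ 64 * gf H r (cz J x + b) +
      gf H r (cz J x + 2 * H + b) - 8 * gf H r (cz J x + H + b) := fun x => by
    by_cases h : |⌊x⌋| ≤ J
    · have e : (cz J x : ℝ) = x - Int.fract x := by simp [cz, h]
      have hδ : |b - Int.fract x| + (r + 1) ≤ H / 100 := by
        have := Int.fract_nonneg x
        have := Int.fract_lt_one x
        have : |b - Int.fract x| ≤ H' := abs_le.2 ⟨by linarith, by linarith⟩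
        linarith
      have a1 := sq_up (u := x) hδ (by positivity)
      have a2 := sq_up (u := x + 2 * H) hδ (by positivity)
      have a3 := sq_lo (u := x + H) hδ (by positivity)
      simp only [gf, ex, h, if_true]
      push_cast
      rw [e, show x - Int.fract x + b = x + (b - Int.fract x) by ring,
        show x - Int.fract x + 2 * H + b = x + 2 * H + (b - Int.fract x) by ring,
        show x - Int.fract x + H + b = x + H + (b - Int.fract x) by ring]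
      simp only [add_assoc _ (r : ℝ) 1]
      nlinarith
    · have a0 := one_le_ex (by omega) h
      simp only [gf, ex, cz, h, if_false] at a0 ⊢
      push_cast
      simp only [zero_add]
      have a1 : (|(b : ℝ)| + r + 1) ^ 2 ≤ (5 * J) ^ 2 := pow_le_pow_left₀ (by positivity)
        (by rw [abs_of_nonneg hb1]; linarith) 2
      have a2 : (|2 * (H : ℝ) + b| + r + 1) ^ 2 ≤ (5 * J) ^ 2 := pow_le_pow_left₀ (by positivity)
        (by rw [abs_of_nonneg (by positivity)]; linarith) 2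
      have a3 := mul_le_mul_of_nonneg_left a0 (show 0 ≤ 65 * (5 * (J : ℝ)) ^ 2 + 16 * H ^ 2 by
        positivity)
      nlinarith [sq_nonneg (|(H : ℝ) + b| + r + 1), sq_nonneg (x - H), sq_nonneg x,
        sq_nonneg (x - 2 * H), sq_nonneg (H : ℝ)]
  refine le_trans ?_ (expect_le_expect fun a _ => hpt (ψ a))
  simp only [expect_sub_distrib, expect_add_distrib, ← mul_expect, h0, h2, Fintype.expect_const]
  have := mul_le_mul_of_nonneg_left hτ
    (show 0 ≤ 65 * (5 * (J : ℝ)) ^ 2 + 16 * H ^ 2 + 16 by positivity)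
  nlinarith [sq_nonneg (H : ℝ)]

theorem cz_sq (h2 : 𝔼 a, ψ a ^ 2 = H ^ 2) (hH : 1 ≤ H) :
    𝔼 a, (cz J (ψ a) : ℝ) ^ 2 ≤ 4 * H ^ 2 := by
  have hpt : ∀ x : ℝ, (cz J x : ℝ) ^ 2 ≤ 2 * x ^ 2 + 2 := fun x => by
    unfold cz; split_ifs
    · have := Int.fract_nonneg x
      have := Int.fract_lt_one x
      rw [← Int.self_sub_fract]
      nlinarith [sq_nonneg (x + Int.fract x)]
    · simp only [Int.cast_zero]; nlinarith [sq_nonneg x]
  refine (expect_le_expect fun a _ => hpt (ψ a)).trans ?_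
  simp only [expect_add_distrib, ← mul_expect, h2, Fintype.expect_const]
  have : (1 : ℝ) ≤ H := by exact_mod_cast hH
  nlinarith

/-- The law of the coarse symbol. -/
noncomputable def wt (ψ : α → ℝ) (J : ℕ) (j : ℤ) : ℝ := 𝔼 a, if cz J (ψ a) = j then 1 else 0

omit [Nonempty α] in
theorem wt_nonneg (j : ℤ) : 0 ≤ wt ψ J j := expect_nonneg fun _ _ => by positivity

theorem wt_le (j : ℤ) : wt ψ J j ≤ 1 :=
  expect_le univ_nonempty fun _ _ => by split_ifs <;> simp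

omit [Nonempty α] in
theorem wt_zero {j : ℤ} (hj : ¬ |j| ≤ J) : wt ψ J j = 0 :=
  expect_eq_zero fun a _ => if_neg fun h => hj (by rw [← h]; exact cz_abs J _)

omit [Nonempty α] in
theorem wt_near (hJ : 1 ≤ J) (hτ : 𝔼 a, ex J (ψ a) ^ 2 ≤ τ) (j : ℤ) :
    |wt ψ J j - 𝔼 a, if ⌊ψ a⌋ = j then 1 else 0| ≤ τ := by
  rw [wt, ← expect_sub_distrib]
  refine (abs_expect_le _ _).trans ((expect_le_expect fun a _ => ?_).trans hτ)
  by_cases h : |⌊ψ a⌋| ≤ J
  · simp [cz, h, sq_nonneg]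
  · refine le_trans ?_ (one_le_ex hJ h)
    split_ifs <;> simp

omit [Nonempty α] in
theorem sum_wt (k : ℤ) (W : Finset ℤ) (hW : ∀ j : ℤ, |j| ≤ J → j + k ∈ W) (F : ℤ → ℝ) :
    ∑ l ∈ W, wt ψ J (l - k) * F l = 𝔼 a, F (cz J (ψ a) + k) := by
  simp only [wt, expect_mul, ← expect_sum_comm]
  refine expect_congr rfl fun a _ => ?_
  simp only [eq_sub_iff_add_eq, ite_mul, one_mul, zero_mul, sum_ite_eq, hW _ (cz_abs J _), if_true]

open Classical in
theorem chebyshev {κ : Type} [Fintype κ] [DecidableEq κ] (A : Finset κ) {N ζ : ℝ}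
    (hA : A.card ≤ N) (hζ : 2 ≤ N * ζ) (hN : 0 < N) :
    𝔼 y : κ → α, (if ∀ j ∈ Icc (-J : ℤ) J, (∑ s ∈ A, if cz J (ψ (y s)) = j then 1 else 0) + 1 ≤
      N * (wt ψ J j + ζ) then 0 else 1 : ℝ) ≤ (2 * J + 1) * (4 / (N * ζ ^ 2)) := by
  have hζ0 : 0 < ζ := by by_contra h; nlinarith
  have hpt : ∀ y : κ → α, (if ∀ j ∈ Icc (-J : ℤ) J,
      (∑ s ∈ A, if cz J (ψ (y s)) = j then 1 else 0) + 1 ≤ N * (wt ψ J j + ζ) then 0 else 1 : ℝ) ≤
      ∑ j ∈ Icc (-J : ℤ) J, 4 / (N * ζ) ^ 2 *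
        (∑ s ∈ A, ((if cz J (ψ (y s)) = j then 1 else 0) - wt ψ J j)) ^ 2 := fun y => by
    split_ifs with h
    · positivity
    · push Not at h
      obtain ⟨j, hj, h⟩ := h
      refine le_trans ?_ (single_le_sum (f := fun j => 4 / (N * ζ) ^ 2 *
        (∑ s ∈ A, ((if cz J (ψ (y s)) = j then 1 else 0) - wt ψ J j)) ^ 2)
        (fun _ _ => by positivity) hj)
      simp only [sum_sub_distrib, sum_const, nsmul_eq_mul]
      have := mul_le_mul_of_nonneg_right hA (wt_nonneg (ψ := ψ) (J := J) j)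
      rw [div_mul_eq_mul_div, le_div_iff₀ (by positivity), one_mul]
      have := pow_le_pow_left₀ (show 0 ≤ N * ζ / 2 by positivity) (show N * ζ / 2 ≤
        (∑ s ∈ A, if cz J (ψ (y s)) = j then 1 else 0) - A.card * wt ψ J j by linarith) 2
      linarith
  refine (expect_le_expect fun y _ => hpt y).trans ?_
  rw [expect_sum_comm]
  refine (sum_le_card_nsmul _ _ (4 / (N * ζ ^ 2)) fun j _ => ?_).trans ?_
  · rw [← mul_expect, expect_sq_sum A fun a => (if cz J (ψ a) = j then 1 else 0) - wt ψ J j]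
    · have h1 : 𝔼 a, ((if cz J (ψ a) = j then 1 else 0) - wt ψ J j) ^ 2 ≤ 1 :=
        expect_le univ_nonempty fun a _ => by
          have := wt_nonneg (ψ := ψ) (J := J) j
          have := wt_le (ψ := ψ) (J := J) j
          split_ifs <;> nlinarith
      have h2 := (mul_le_mul_of_nonneg_left h1 (Nat.cast_nonneg A.card)).trans
        (by linarith : _ ≤ N)
      refine (mul_le_mul_of_nonneg_left h2 (by positivity)).trans (le_of_eq ?_)
      field_simp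
    · simp [expect_sub_distrib, wt]
  · rw [Int.card_Icc, show ((J : ℤ) + 1 - -J).toNat = 2 * J + 1 by omega, nsmul_eq_mul]
    push_cast
    rfl

end Vale.Agent.P047
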