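import Vale.Agent.P047.Basic

/-! A packing of lines with a localized leftover gives a more efficient scored variable. -/

namespace Vale.Agent.P047

open Finset Function
open scoped BigOperators

/-- A family of disjoint sets, the `t`-th one not depending on coordinate `t`. -/
structure Packing {κ α : Type} [Fintype κ] [DecidableEq κ] (φ : α → ℝ)
    (E : κ → (κ → α) → ℝ) : Prop where
  bool : ∀ t y, E t y = 0 ∨ E t y = 1
  disj : ∀ t s y, E t y = 1 → E s y = 1 → t = s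
  dep : ∀ t, Dep φ (univ.erase t) (E t)

variable {κ α : Type} [Fintype κ] [DecidableEq κ] {φ : α → ℝ} {E : κ → (κ → α) → ℝ}

theorem Packing.cases (h : Packing φ E) (y : κ → α) :
    (∀ t, E t y = 0) ∨ ∃ t, ∀ s, E s y = if s = t then 1 else 0 := by
  by_cases h0 : ∀ t, E t y = 0
  · exact Or.inl h0
  obtain ⟨t, ht⟩ := not_forall.1 h0
  have ht := (h.bool t y).resolve_left ht
  refine Or.inr ⟨t, fun s => ?_⟩
  split_ifs with hs
  · rw [hs, ht]
  · exact (h.bool s y).resolve_right fun h' => hs (h.disj _ _ y h' ht)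

theorem Packing.comp (h : Packing φ E) (g : ℝ → ℝ) (T : κ → ℝ) (σ : ℝ) (y : κ → α) :
    g (∑ t, E t y * T t + (1 - ∑ t, E t y) * σ) =
      ∑ t, E t y * g (T t) + (1 - ∑ t, E t y) * g σ := by
  rcases h.cases y with h | ⟨t, h⟩ <;> simp [h]

theorem Packing.rest (h : Packing φ E) (y : κ → α) :
    1 - ∑ t, E t y = 0 ∨ 1 - ∑ t, E t y = 1 := by
  rcases h.cases y with h | ⟨t, h⟩ <;> simp [h]

theorem Good.pack {ι : Type} [Fintype ι] [DecidableEq ι] {c N : ℕ} {φ : (ι → Bool) → ℝ}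
    (h : Good c φ) (hN : Fintype.card κ = N + 1) {E : κ → (κ → ι → Bool) → ℝ} (hE : Packing φ E)
    {V γ s : ℝ} (hV : 𝔼 x, φ x ^ 2 = V)
    (hγ : γ ≤ 𝔼 y, (1 - ∑ t, E t y) * (V - (∑ j, φ (y j) - s) ^ 2)) :
    ∃ Ψ : (κ × ι → Bool) → ℝ, Good (N * c) Ψ ∧ N * V + γ ≤ 𝔼 x, Ψ x ^ 2 := by
  set R : (κ → ι → Bool) → ℝ := fun y => 1 - ∑ t, E t y with hR
  set Φ : (κ → ι → Bool) → ℝ := fun y => ∑ j, φ (y j) with hΦ
  set T : κ → (κ → ι → Bool) → ℝ := fun t y => ∑ j ∈ univ.erase t, φ (y j) with hT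
  set σ : ℝ := (𝔼 y, R y * Φ y) / 𝔼 y, R y with hσ
  set Ψ : (κ → ι → Bool) → ℝ := fun y => ∑ t, E t y * T t y + R y * σ with hΨ
  have hTd : ∀ t, Dep φ (univ.erase t) (T t) := fun t y y' hy => sum_congr rfl hy
  have hg : ∀ (g : ℝ → ℝ) y, g (Ψ y) = ∑ t, E t y * g (T t y) + R y * g σ := fun g y =>
    hE.comp g (fun t => T t y) σ y
  have hR0 : ∀ y, 0 ≤ R y := fun y => by rcases hE.rest y with h | h <;> simp [hR, h]
  have hσ' : σ * 𝔼 y, R y = 𝔼 y, R y * Φ y := by
    by_cases h0 : 𝔼 y, R y = 0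
    · have := (Fintype.expect_eq_zero_iff_of_nonneg hR0).1 h0
      simp [this]
    · exact div_mul_cancel₀ _ h0
  have hΦT : ∀ t y, Φ y = φ (y t) + T t y := fun t y => (add_sum_erase _ _ (mem_univ t)).symm
  have hind : ∀ (f g : ℝ → ℝ) t, 𝔼 y, f (φ (y t)) * (E t y * g (T t y)) =
      (𝔼 a, f (φ a)) * 𝔼 y, E t y * g (T t y) := fun f g t =>
    expect_mul_indep t (fun a => f (φ a)) _ fun y a => by rw [(hE.dep t).update, (hTd t).update]
  have h3 : ∀ g : ℝ → ℝ, 𝔼 y, Φ y * g (Ψ y) = 𝔼 y, Ψ y * g (Ψ y) := fun g => by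
    have e1 : ∀ y, Φ y * g (Ψ y) = ∑ t, (φ (y t) * (E t y * g (T t y)) +
        E t y * (T t y * g (T t y))) + R y * Φ y * g σ := fun y => by
      rw [hg g y, mul_add, mul_sum]
      congr 1
      · exact sum_congr rfl fun t _ => by rw [hΦT t]; ring
      · ring
    simp only [e1, hg fun r => r * g r, expect_add_distrib, expect_sum_comm, ← expect_mul, ← hσ',
      fun t => hind id g t]
    have := hind id g
    simp only [id, h.mean, zero_mul] at this
    simp only [this, zero_add]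
    ring
  refine ⟨fun x => Ψ fun j i => x (j, i), h.lift (fun y y' hy => ?_) (fun g => ?_) h3, ?_⟩
  · simp only [hΨ, hR, fun t => (hE.dep t).mono (subset_univ _) y y' hy,
      fun t => (hTd t).mono (subset_univ _) y y' hy]
  · have e : (fun x : κ × ι → Bool => g (Ψ fun j i => x (j, i))) = (fun _ => g σ) +
        ∑ t, fun x : κ × ι → Bool => E t (fun j i => x (j, i)) *
          (g (T t fun j i => x (j, i)) - g σ) := by
      funext x
      simp only [hg, Pi.add_apply, Finset.sum_apply, hR, mul_sub, sum_sub_distrib, ← sum_mul]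
      ring
    rw [e]
    refine add_mem (Jun.const _ _) (Submodule.sum_mem _ fun t _ => ?_)
    have := Dep.jun h.jun (univ.erase t) (fun y => E t y * (g (T t y) - g σ)) fun y y' hy => by
      simp only [hE.dep t y y' hy, hTd t y y' hy]
    rwa [card_erase_of_mem (mem_univ t), card_univ, hN, Nat.add_sub_cancel] at this
  · rw [expect_curry fun y => Ψ y ^ 2]
    have e0 : 𝔼 y, Φ y ^ 2 = (N + 1) * V := by
      rw [expect_sq_sum univ φ h.mean, card_univ, hN, hV]; push_cast; ring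
    have e1 : ∀ y, Ψ y ^ 2 = Φ y ^ 2 - 2 * (Φ y * Ψ y - Ψ y * Ψ y) -
        (∑ t, φ (y t) ^ 2 * (E t y * 1) + R y * (Φ y - σ) ^ 2) := fun y => by
      have := hg (fun r => (Φ y - r) ^ 2) y
      rw [sum_congr rfl (g := fun t => φ (y t) ^ 2 * (E t y * 1)) fun t _ => by
        rw [hΦT t]; ring] at this
      rw [← this]; ring
    have e2 : ∀ y, R y * (Φ y - σ) ^ 2 = R y * (Φ y - s) ^ 2 - 2 * (σ - s) * (R y * Φ y) +
        (σ ^ 2 - s ^ 2) * R y := fun y => by ring
    have e3 : ∀ y, R y * (V - (Φ y - s) ^ 2) = V * R y - R y * (Φ y - s) ^ 2 := fun y => by ring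
    have e4 : 𝔼 y, R y = 1 - ∑ t, 𝔼 y, E t y * 1 := by
      simp [hR, expect_sub_distrib, expect_sum_comm]
    have e5 := fun t => hind (fun r => r ^ 2) (fun _ => 1) t
    have e6 := h3 id
    have e7 : 0 ≤ 𝔼 y, R y := expect_nonneg fun y _ => hR0 y
    simp only [id] at e6
    change γ ≤ 𝔼 y, R y * (V - (Φ y - s) ^ 2) at hγ
    simp only [e3, expect_sub_distrib, ← mul_expect] at hγ
    simp only [e1, e2, expect_sub_distrib, expect_add_distrib, ← mul_expect, expect_sum_comm, e5,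
      e0, e6, hV, ← mul_sum, ← hσ']
    have e8 : ∑ t, 𝔼 y, E t y * 1 = 1 - 𝔼 y, R y := by rw [e4]; ring
    rw [e8]
    nlinarith [mul_nonneg e7 (sq_nonneg (σ - s))]

end Vale.Agent.P047
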