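import Vale.Agent.P047.Moments

/-! The fractional packing. -/

namespace Vale.Agent.P047

open Finset Function
open scoped BigOperators

/-- Rates of lines by centre, at level `b`. -/
noncomputable def nn (H H' : ℕ) (b t : ℤ) : ℝ :=
  if 0 ≤ b ∧ b < H' then (if t = H then 8 / 128 else 0)
  else (if t = 0 then 64 / 128 else 0) + if t = 2 * H then 1 / 128 else 0

/-- Averages against the rates. -/
noncomputable def nb (H H' : ℕ) (b : ℤ) (F : ℤ → ℝ) (j : ℤ) : ℝ :=
  if 0 ≤ b ∧ b < H' then 8 / 128 * F (j + H) else 64 / 128 * F j + 1 / 128 * F (j + 2 * H)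

variable {α : Type} [Fintype α] [Nonempty α] {ψ : α → ℝ} {J H H' r N : ℕ} {τ c : ℝ}

/-- Density of removed default lines. -/
noncomputable def bb (ψ : α → ℝ) (J H : ℕ) (c : ℝ) (l : ℤ) : ℝ :=
  64 / 128 * wt ψ J l + 1 / 128 * wt ψ J (l - 2 * H) + if |l| ≤ J + 2 * H then c else 0

/-- Typical empirical frequencies. -/
def El (ψ : α → ℝ) (J : ℕ) (c : ℝ) (t : Fin (N + 1)) (z : Fin (N + 1) → ℤ) : Prop :=
  ∀ j ∈ Icc (-J : ℤ) J, (∑ s ∈ (univ.erase (Fin.last N)).erase t, if z s = j then 1 else 0) + 1 ≤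
    N * (wt ψ J j + c / 2)

open Classical in
/-- The rate of the line through `z` in direction `t` when the location is `l`. -/
noncomputable def rt (ψ : α → ℝ) (J H H' : ℕ) (c : ℝ) (t : Fin (N + 1)) (z : Fin (N + 1) → ℤ)
    (l : ℤ) : ℝ :=
  if t = Fin.last N then 1 - bb ψ J H c l
  else if El ψ J c t z then nn H H' (z (Fin.last N)) (l - z t) / N else 0

theorem nn_nonneg (b t : ℤ) : 0 ≤ nn H H' b t := by unfold nn; positivity

theorem nn_le (b t : ℤ) : nn H H' b t ≤ 1 := by unfold nn; split_ifs <;> norm_num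

theorem nn_supp {b t : ℤ} (h : nn H H' b t ≠ 0) : 0 ≤ t ∧ t ≤ 2 * H := by
  unfold nn at h; split_ifs at h <;> first | omega | simp at h

theorem sum_nn (b j : ℤ) (hj : |j| ≤ J) (F : ℤ → ℝ) :
    ∑ l ∈ Icc (-(J + 2 * H) : ℤ) (J + 2 * H), nn H H' b (l - j) * F l = nb H H' b F j := by
  have := abs_le.1 hj
  unfold nn nb
  split_ifs
  · simp only [sub_eq_iff_eq_add', ite_mul, zero_mul, sum_ite_eq', mem_Icc]
    rw [if_pos (by omega)]
  · simp only [sub_eq_iff_eq_add', add_mul, ite_mul, zero_mul, sum_add_distrib, sum_ite_eq',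
      mem_Icc, add_zero]
    rw [if_pos (by omega), if_pos (by omega)]

omit [Nonempty α] in
theorem bb_nonneg (hc : 0 ≤ c) (l : ℤ) : 0 ≤ bb ψ J H c l := by
  have := wt_nonneg (ψ := ψ) (J := J) l
  have := wt_nonneg (ψ := ψ) (J := J) (l - 2 * H)
  unfold bb; positivity

theorem bb_le (hc : c ≤ 1 / 4) (l : ℤ) : bb ψ J H c l ≤ 1 := by
  have := wt_le (ψ := ψ) (J := J) l
  have := wt_le (ψ := ψ) (J := J) (l - 2 * H)
  unfold bb; split_ifs <;> linarith

omit [Nonempty α] in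
theorem bb_zero {l : ℤ} (h : ¬ |l| ≤ J + 2 * H) : bb ψ J H c l = 0 := by
  rw [abs_le] at h
  rw [bb, wt_zero, wt_zero, if_neg] <;> simp [abs_le] <;> omega

omit [Nonempty α] in
theorem sum_bb (F : ℤ → ℝ) : ∑ l ∈ Icc (-(J + 2 * H) : ℤ) (J + 2 * H), bb ψ J H c l * F l =
    (𝔼 a, (64 / 128 * F (cz J (ψ a)) + 1 / 128 * F (cz J (ψ a) + 2 * H))) +
      c * ∑ l ∈ Icc (-(J + 2 * H) : ℤ) (J + 2 * H), F l := by
  have h1 := sum_wt (ψ := ψ) (J := J) 0 (Icc (-(J + 2 * H) : ℤ) (J + 2 * H))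
    (fun j hj => by rw [abs_le] at hj; rw [mem_Icc]; omega) F
  have h2 := sum_wt (ψ := ψ) (J := J) (2 * H) (Icc (-(J + 2 * H) : ℤ) (J + 2 * H))
    (fun j hj => by rw [abs_le] at hj; rw [mem_Icc]; omega) F
  simp only [sub_zero, add_zero] at h1
  simp only [expect_add_distrib, ← mul_expect, ← h1, ← h2, mul_sum, ← sum_add_distrib]
  refine sum_congr rfl fun l hl => ?_
  rw [bb, if_pos (abs_le.2 (mem_Icc.1 hl))]; ring

theorem rt_nonneg (hc : c ≤ 1 / 4) (t : Fin (N + 1)) (z l) : 0 ≤ rt ψ J H H' c t z l := by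
  have := bb_le (ψ := ψ) (J := J) (H := H) hc l
  have := nn_nonneg (H := H) (H' := H') (z (Fin.last N)) (l - z t)
  unfold rt; split_ifs
  · linarith
  · positivity
  · rfl

omit [Nonempty α] in
theorem sum_rt (z : Fin (N + 1) → ℤ) (l : ℤ) : 1 - ∑ t, rt ψ J H H' c t z l =
    bb ψ J H c l - ∑ t ∈ univ.erase (Fin.last N), rt ψ J H H' c t z l := by
  rw [← add_sum_erase _ _ (mem_univ (Fin.last N)), rt, if_pos rfl]; ring

omit [Nonempty α] in
theorem rt_slack (hc : 0 < c) (hN : 0 < N)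
    (hP : ∀ l : ℤ, |l| ≤ J + 2 * H →
      8 * wt ψ J (l - H) ≤ 64 * wt ψ J l + wt ψ J (l - 2 * H) + 37 * c)
    {z : Fin (N + 1) → ℤ} (hz : ∀ s, |z s| ≤ J) {t : Fin (N + 1)} (ht : t ≠ Fin.last N)
    (hE : El ψ J c t z) {l : ℤ} (hl : |l| ≤ J + 2 * H) :
    c / 2 ≤ 1 - ∑ s, rt ψ J H H' c s z l := by
  have hN' : (0 : ℝ) < N := by exact_mod_cast hN
  have cnt : ∀ j k : ℤ, (∑ s ∈ univ.erase (Fin.last N), if j - z s = k then (1 : ℝ) else 0) ≤
      N * (wt ψ J (j - k) + c / 2) := fun j k => by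
    simp only [show ∀ s, j - z s = k ↔ z s = j - k from fun s => by omega]
    by_cases hj : j - k ∈ Icc (-J : ℤ) J
    · refine le_trans ?_ (hE _ hj)
      rw [← sum_erase_add _ _ (show t ∈ univ.erase (Fin.last N) by simpa using ht)]
      split_ifs <;> simp
    · rw [sum_eq_zero fun s _ => if_neg fun h => hj (by rw [← h]; exact mem_Icc.2 (abs_le.1 (hz s)))]
      have := wt_nonneg (ψ := ψ) (J := J) (j - k)
      positivity
  have h1 : ∑ s ∈ univ.erase (Fin.last N), rt ψ J H H' c s z l ≤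
      (∑ s ∈ univ.erase (Fin.last N), nn H H' (z (Fin.last N)) (l - z s)) / N := by
    rw [sum_div]
    refine sum_le_sum fun s hs => ?_
    have := nn_nonneg (H := H) (H' := H') (z (Fin.last N)) (l - z s)
    rw [rt, if_neg (ne_of_mem_erase hs)]
    split_ifs
    · rfl
    · positivity
  have h2 : ∑ s ∈ univ.erase (Fin.last N), nn H H' (z (Fin.last N)) (l - z s) ≤
      (bb ψ J H c l - c / 2) * N := by
    have a1 := cnt l H
    have a2 := cnt l 0
    have a3 := cnt l (2 * H)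
    have a4 := mul_le_mul_of_nonneg_left (hP l hl) hN'.le
    have a5 := mul_pos hN' hc
    rw [sub_zero] at a2
    rw [bb, if_pos hl]
    unfold nn
    split_ifs
    · rw [sum_congr rfl (g := fun s => 8 / 128 * if l - z s = H then 1 else 0) fun s _ => by
        split_ifs <;> simp, ← mul_sum]
      nlinarith
    · rw [sum_congr rfl (g := fun s => 64 / 128 * (if l - z s = 0 then 1 else 0) +
        1 / 128 * if l - z s = 2 * H then 1 else 0) fun s _ => by
        split_ifs <;> simp, sum_add_distrib, ← mul_sum, ← mul_sum]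
      nlinarith
  rw [sum_rt]
  have := h1.trans ((div_le_iff₀ hN').2 h2)
  linarith

theorem shift_sum {P L x : ℤ} (hx : |x| + P ≤ L) (Φ : ℤ → ℝ) (hΦ : ∀ l, ¬ |l| ≤ P → Φ l = 0) :
    ∑ σ ∈ Icc (-L) L, Φ (x - σ) = ∑ l ∈ Icc (-P) P, Φ l := by
  have := abs_le.1 (le_refl |x|)
  rw [sum_subset (s₁ := Icc (-P) P) (s₂ := Icc (x - L) (x + L))
    (Icc_subset_Icc (by omega) (by omega)) fun l _ hl => hΦ l (by rwa [mem_Icc, ← abs_le] at hl)]
  refine sum_nbij' (fun σ => x - σ) (fun l => x - l) ?_ ?_ ?_ ?_ ?_ <;> simp <;> omega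

end Vale.Agent.P047
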